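import Mathlib.Analysis.Complex.AbsMax
import Mathlib.Analysis.Complex.OpenMapping
import Mathlib.Analysis.Complex.CauchyIntegral
import Mathlib.Analysis.Calculus.InverseFunctionTheorem.Deriv
import Mathlib.Analysis.SpecialFunctions.Complex.LogDeriv
import Mathlib.Analysis.Complex.Polynomial.Basic
import Mathlib.Analysis.SpecialFunctions.Complex.Analytic
import Mathlib.RingTheory.RootsOfUnity.Complex

/-!
# P153, SLE side, block L1 (second): maximum principle, injective holomorphic maps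
-/

open Complex Metric Set Filter Topology
open scoped Real ComplexConjugate

namespace Vale.Agent.P153.R2.L1

/-- Maximum principle on an arbitrary open set: if for every `ε > 0` the function is bounded by
`M + ε` off a compact subset of `U`, it is bounded by `M` on `U`. -/
theorem maxP {U : Set ℂ} (hU : IsOpen U) {f : ℂ → ℂ} (hf : DifferentiableOn ℂ f U) {M : ℝ}
    (h : ∀ ε : ℝ, 0 < ε → ∃ L, IsCompact L ∧ L ⊆ U ∧ ∀ z ∈ U, z ∉ L → ‖f z‖ ≤ M + ε) :
    ∀ z ∈ U, ‖f z‖ ≤ M := by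
  intro z₀ hz₀
  by_contra hcon
  push Not at hcon
  obtain ⟨L, hL, hLU, hM⟩ := h ((‖f z₀‖ - M) / 2) (by linarith)
  have hz₀L : z₀ ∈ L := by
    by_contra hn
    have := hM z₀ hz₀ hn
    linarith
  have hc : ContinuousOn (fun z => ‖f z‖) L := (hf.continuousOn.mono hLU).norm
  obtain ⟨z₁, hz₁, hmax⟩ := hL.exists_isMaxOn ⟨z₀, hz₀L⟩ hc
  have hge : ‖f z₀‖ ≤ ‖f z₁‖ := hmax hz₀L
  have hall : ∀ z ∈ U, ‖f z‖ ≤ ‖f z₁‖ := by
    intro z hz
    by_cases hzL : z ∈ L
    · exact hmax hzL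
    · have := hM z hz hzL
      linarith
  set S : Set ℂ := {z | z ∈ L ∧ ‖f z‖ = ‖f z₁‖} with hS
  have hSc : IsCompact S := by
    have : S = L ∩ (fun z => ‖f z‖) ⁻¹' {‖f z₁‖} := by
      ext z; simp [hS]
    rw [this]
    exact hL.of_isClosed_subset (hc.preimage_isClosed_of_isClosed hL.isClosed isClosed_singleton)
      inter_subset_left
  have hSo : IsOpen S := by
    rw [isOpen_iff_mem_nhds]
    rintro z ⟨hzL, hz⟩
    have hzU : z ∈ U := hLU hzL
    have hloc : IsLocalMax (norm ∘ f) z := by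
      filter_upwards [hU.mem_nhds hzU] with y hy
      simp only [Function.comp_apply]
      rw [hz]
      exact hall y hy
    have hd : ∀ᶠ y in 𝓝 z, DifferentiableAt ℂ f y := by
      filter_upwards [hU.mem_nhds hzU] with y hy
      exact (hf y hy).differentiableAt (hU.mem_nhds hy)
    have h1 := Complex.eventually_eq_of_isLocalMax_norm hd hloc
    filter_upwards [h1, hU.mem_nhds hzU] with y hy hyU
    have hn : ‖f y‖ = ‖f z₁‖ := by rw [hy, hz]
    refine ⟨?_, hn⟩
    by_contra hyL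
    have := hM y hyU hyL
    linarith
  have hclopen : IsClopen S := ⟨hSc.isClosed, hSo⟩
  rcases isClopen_iff.mp hclopen with h0 | h1
  · have : z₁ ∈ S := ⟨hz₁, rfl⟩
    rw [h0] at this
    exact this
  · rw [h1] at hSc
    exact noncompact_univ ℂ hSc

/-- An injective holomorphic function has nonvanishing derivative. -/
theorem injOn_deriv_ne_zero {f : ℂ → ℂ} {U : Set ℂ} (hU : IsOpen U)
    (hf1 : DifferentiableOn ℂ f U)
    (hf2 : InjOn f U) {z₀ : ℂ} (hz : z₀ ∈ U) : deriv f z₀ ≠ 0 := by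
  intro hd
  have hnhds : U ∈ 𝓝 z₀ := hU.mem_nhds hz
  have hfa : AnalyticAt ℂ f z₀ := hf1.analyticAt hnhds
  have hφ : AnalyticAt ℂ (fun z => f z - f z₀) z₀ := hfa.sub analyticAt_const
  have hnz : ¬ ∀ᶠ z in 𝓝 z₀, f z - f z₀ = 0 := by
    intro h
    have h2 : ∀ᶠ z in 𝓝[≠] z₀, f z - f z₀ = 0 ∧ z ∈ U :=
      (h.and hnhds).filter_mono nhdsWithin_le_nhds
    obtain ⟨z, ⟨h3, h4⟩, h5⟩ := (h2.and self_mem_nhdsWithin).exists
    exact h5 (hf2 h4 hz (sub_eq_zero.mp h3))
  obtain ⟨n, g, hg, hg0, hgn⟩ := (hφ.exists_eventuallyEq_pow_smul_nonzero_iff).mpr hnz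
  have hn0 : n ≠ 0 := by
    rintro rfl
    have := hgn.self_of_nhds
    simp at this
    exact hg0 this.symm
  have hn1 : n ≠ 1 := by
    rintro rfl
    have h1 : HasDerivAt (fun z => (z - z₀) ^ 1 • g z) (g z₀) z₀ := by
      have := ((hasDerivAt_id z₀).sub_const z₀).fun_mul hg.differentiableAt.hasDerivAt
      simpa using this
    have h2 : HasDerivAt (fun z => f z - f z₀) (g z₀) z₀ := h1.congr_of_eventuallyEq hgn
    have h3 : HasDerivAt (fun z => f z - f z₀) (deriv f z₀) z₀ :=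
      (hfa.differentiableAt.hasDerivAt).sub_const _
    exact hg0 ((h2.unique h3).trans hd)
  obtain ⟨c, hc⟩ := IsAlgClosed.exists_pow_nat_eq (g z₀) (Nat.pos_of_ne_zero hn0)
  have hc0 : c ≠ 0 := by
    rintro rfl
    rw [zero_pow hn0] at hc
    exact hg0 hc.symm
  set k : ℂ → ℂ := fun z => cexp (Complex.log (g z / g z₀) / n) with hk
  have hnC : (n : ℂ) ≠ 0 := by exact_mod_cast hn0
  have hkn : ∀ᶠ z in 𝓝 z₀, k z ^ n = g z / g z₀ := by
    have : ∀ᶠ z in 𝓝 z₀, g z ≠ 0 := hg.continuousAt.eventually_ne hg0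
    filter_upwards [this] with z hz
    rw [hk]
    simp only
    rw [← Complex.exp_nat_mul, mul_div_cancel₀ _ hnC, Complex.exp_log (div_ne_zero hz hg0)]
  have hk0 : k z₀ = 1 := by simp [hk, div_self hg0]
  have hkd : AnalyticAt ℂ k z₀ := by
    have h1 : AnalyticAt ℂ (fun z => g z / g z₀) z₀ := hg.div analyticAt_const hg0
    have h2 : AnalyticAt ℂ (fun z => Complex.log (g z / g z₀)) z₀ := by
      apply h1.clog
      rw [div_self hg0]
      exact Complex.one_mem_slitPlane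
    exact (h2.div analyticAt_const hnC).cexp
  set h : ℂ → ℂ := fun z => (z - z₀) * (c * k z) with hh
  have hha : AnalyticAt ℂ h z₀ := by
    exact (analyticAt_id.sub analyticAt_const).mul (analyticAt_const.mul hkd)
  have hhd : HasDerivAt h c z₀ := by
    have := ((hasDerivAt_id z₀).sub_const z₀).mul
      ((hasDerivAt_const z₀ c).mul hkd.differentiableAt.hasDerivAt)
    refine this.congr_deriv ?_
    simp [hk0]
  have hhs : HasStrictDerivAt h c z₀ := by
    have := hha.hasStrictDerivAt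
    rwa [hhd.deriv] at this
  have hmap : map h (𝓝 z₀) = 𝓝 (h z₀) := hhs.map_nhds_eq hc0
  have hh0 : h z₀ = 0 := by simp [hh]
  have hpow : ∀ᶠ z in 𝓝 z₀, f z - f z₀ = h z ^ n := by
    filter_upwards [hgn, hkn] with z h1 h2
    rw [h1, hh]
    simp only
    rw [mul_pow, mul_pow, h2, hc, smul_eq_mul]
    field_simp
  have hV : {z | f z - f z₀ = h z ^ n ∧ z ∈ U} ∈ 𝓝 z₀ := hpow.and hnhds
  have himg : h '' {z | f z - f z₀ = h z ^ n ∧ z ∈ U} ∈ 𝓝 (0 : ℂ) := by
    have h1 := image_mem_map (m := h) hV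
    rwa [hmap, hh0] at h1
  obtain ⟨ε, hε, hball⟩ := Metric.mem_nhds_iff.mp himg
  have hprim := Complex.isPrimitiveRoot_exp n hn0
  set ω := cexp (2 * π * I / n) with hω
  have hω1 : ω ≠ 1 := hprim.ne_one (by omega)
  have hωn : ω ^ n = 1 := hprim.pow_eq_one
  have hωnorm : ‖ω‖ = 1 := Complex.norm_eq_one_of_pow_eq_one hωn hn0
  set w : ℂ := ((ε / 2 : ℝ) : ℂ) with hw
  have hwn : ‖w‖ = ε / 2 := by
    rw [hw, Complex.norm_real, Real.norm_eq_abs, abs_of_pos (by positivity)]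
  have hw1 : w ∈ ball (0 : ℂ) ε := by rw [mem_ball_zero_iff, hwn]; linarith
  have hw2 : ω * w ∈ ball (0 : ℂ) ε := by
    rw [mem_ball_zero_iff, norm_mul, hωnorm, one_mul, hwn]; linarith
  obtain ⟨z1, ⟨h11, h12⟩, h13⟩ := hball hw1
  obtain ⟨z2, ⟨h21, h22⟩, h23⟩ := hball hw2
  have heq : f z1 = f z2 := by
    have : f z1 - f z₀ = f z2 - f z₀ := by
      rw [h11, h21, h13, h23, mul_pow, hωn, one_mul]
    exact sub_left_injective this
  have hz12 := hf2 h12 h22 heq
  rw [hz12, h23] at h13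
  have hw0 : w ≠ 0 := by
    intro h0
    rw [h0, norm_zero] at hwn
    linarith
  exact hω1 (mul_right_cancel₀ hw0 (by rw [h13, one_mul]))

end Vale.Agent.P153.R2.L1
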