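import Mathlib.Analysis.Complex.HasPrimitives
import Mathlib.Analysis.Complex.BorelCaratheodory
import Mathlib.Analysis.Calculus.MeanValue
import Mathlib.Analysis.Complex.ReImTopology
import Mathlib.Analysis.Calculus.Deriv.Star

/-!
# P153, SLE side, block L1 (second): Schwarz reflection

`reflect`: if `Ω` is open and symmetric, `F` is holomorphic on `Ω ∩ {Im > 0}` and
`|Im F| ≤ C Im z` there, then `F` extends holomorphically to `Ω`, symmetrically.
-/

open Complex Metric Set Filter Topology MeasureTheory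
open scoped Real ComplexConjugate Interval

namespace Vale.Agent.P153.R2.L1

/-- A continuous function which is holomorphic off the real axis is conservative. -/
theorem cons_off_line {G : ℂ → ℂ} {U : Set ℂ} (hc : ContinuousOn G U)
    (hd : ∀ z ∈ U, z.im ≠ 0 → DifferentiableAt ℂ G z) : IsConservativeOn G U := by
  have base : ∀ z w : ℂ, Rectangle z w ⊆ U → 0 ∉ Ioo (min z.im w.im) (max z.im w.im) →
      (∫ x : ℝ in z.re..w.re, G (x + z.im * I)) - (∫ x : ℝ in z.re..w.re, G (x + w.im * I)) +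
      I • (∫ y : ℝ in z.im..w.im, G (w.re + y * I)) -
      I • (∫ y : ℝ in z.im..w.im, G (z.re + y * I)) = 0 := by
    intro z w hzw h0
    refine integral_boundary_rect_eq_zero_of_continuousOn_of_differentiableOn G z w
      (hc.mono hzw) ?_
    intro x hx
    refine (hd x (hzw ?_) ?_).differentiableWithinAt
    · refine ⟨?_, ?_⟩
      · exact Ioo_subset_Icc_self hx.1
      · exact Ioo_subset_Icc_self hx.2
    · intro h1
      apply h0
      have := hx.2
      rw [mem_preimage, h1] at this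
      exact this
  intro z w hzw
  rw [← add_eq_zero_iff_eq_neg, wedgeIntegral_add_wedgeIntegral_eq]
  by_cases h0 : 0 ∈ Ioo (min z.im w.im) (max z.im w.im)
  swap
  · exact base z w hzw h0
  have h0' : (0 : ℝ) ∈ [[z.im, w.im]] := Ioo_subset_Icc_self h0
  have hs1 : [[z.im, (0 : ℝ)]] ⊆ [[z.im, w.im]] := uIcc_subset_uIcc left_mem_uIcc h0'
  have hs2 : [[(0 : ℝ), w.im]] ⊆ [[z.im, w.im]] := uIcc_subset_uIcc h0' right_mem_uIcc
  have hr1 : Rectangle z (⟨w.re, 0⟩ : ℂ) ⊆ U := by
    refine Subset.trans ?_ hzw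
    intro x hx
    exact ⟨hx.1, hs1 hx.2⟩
  have hr2 : Rectangle (⟨z.re, 0⟩ : ℂ) w ⊆ U := by
    refine Subset.trans ?_ hzw
    intro x hx
    exact ⟨hx.1, hs2 hx.2⟩
  have hb1 := base z (⟨w.re, 0⟩ : ℂ) hr1 (by
    simp only [mem_Ioo, not_and, not_lt]
    intro h
    rcases min_lt_iff.mp h with h | h
    · exact max_le h.le le_rfl
    · exact absurd h (lt_irrefl _))
  have hb2 := base (⟨z.re, 0⟩ : ℂ) w hr2 (by
    simp only [mem_Ioo, not_and, not_lt]
    intro h
    rcases min_lt_iff.mp h with h | h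
    · exact absurd h (lt_irrefl _)
    · exact max_le le_rfl h.le)
  simp only at hb1 hb2
  have hv : ∀ a ∈ [[z.re, w.re]], ∀ b c : ℝ, b ∈ [[z.im, w.im]] → c ∈ [[z.im, w.im]] →
      IntervalIntegrable (fun y : ℝ => G (a + y * I)) volume b c := by
    intro a ha b c hb hc'
    refine ContinuousOn.intervalIntegrable ?_
    refine hc.comp (by fun_prop) ?_
    intro y hy
    apply hzw
    refine ⟨?_, ?_⟩
    · simpa using ha
    · have := (uIcc_subset_uIcc hb hc') hy
      simpa using this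
  have e1 := intervalIntegral.integral_add_adjacent_intervals
    (hv w.re right_mem_uIcc z.im 0 left_mem_uIcc h0')
    (hv w.re right_mem_uIcc 0 w.im h0' right_mem_uIcc)
  have e2 := intervalIntegral.integral_add_adjacent_intervals
    (hv z.re left_mem_uIcc z.im 0 left_mem_uIcc h0')
    (hv z.re left_mem_uIcc 0 w.im h0' right_mem_uIcc)
  rw [← e1, ← e2]
  simp only [smul_eq_mul] at hb1 hb2 ⊢
  linear_combination hb1 + hb2

/-- A continuous function on an open set which is holomorphic off the real axis is holomorphic. -/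
theorem diff_off_line {G : ℂ → ℂ} {U : Set ℂ} (hU : IsOpen U) (hc : ContinuousOn G U)
    (hd : ∀ z ∈ U, z.im ≠ 0 → DifferentiableAt ℂ G z) : DifferentiableOn ℂ G U := by
  intro z hz
  obtain ⟨r, hr, hball⟩ := Metric.isOpen_iff.mp hU z hz
  have h1 : IsExactOn G (ball z r) :=
    (cons_off_line (hc.mono hball) (fun w hw => hd w (hball hw))).isExactOn_ball (hc.mono hball)
  exact ((h1.differentiableOn isOpen_ball).differentiableAt
    (isOpen_ball.mem_nhds (mem_ball_self hr))).differentiableWithinAt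

/-- Borel–Carathéodory for the derivative at the centre. -/
theorem deriv_le_of_im {F : ℂ → ℂ} {z : ℂ} {r M : ℝ} (hr : 0 < r) (hM : 0 < M)
    (hF : DifferentiableOn ℂ F (ball z r)) (hb : ∀ w ∈ ball z r, (F w).im - (F z).im ≤ M) :
    ‖deriv F z‖ ≤ 2 * M / r := by
  set f : ℂ → ℂ := fun ζ => -I * (F (z + ζ) - F z) with hf
  have hmaps : MapsTo (fun ζ : ℂ => z + ζ) (ball 0 r) (ball z r) := by
    intro ζ hζ
    simpa [mem_ball, dist_eq_norm] using hζ
  have hfd : DifferentiableOn ℂ f (ball 0 r) := by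
    refine DifferentiableOn.const_mul (DifferentiableOn.sub_const (hF.comp ?_ hmaps) _) _
    fun_prop
  have hre : MapsTo f (ball 0 r) {w | w.re ≤ M} := by
    intro ζ hζ
    have := hb _ (hmaps hζ)
    simp only [hf, mem_ofPred_eq, mul_re, neg_re, I_re, sub_re, neg_im, I_im, sub_im]
    linarith
  have h0 : f 0 = 0 := by simp [hf]
  have hFz : HasDerivAt F (deriv F z) z :=
    ((hF z (mem_ball_self hr)).differentiableAt (isOpen_ball.mem_nhds
      (mem_ball_self hr))).hasDerivAt
  have hbd : ∀ ζ ∈ ball (0 : ℂ) r, ‖F (z + ζ) - F z‖ ≤ 2 * M / (r - ‖ζ‖) * ‖ζ‖ := by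
    intro ζ hζ
    have h := Complex.borelCaratheodory_zero hM hfd hre hr hζ h0
    have e : ‖f ζ‖ = ‖F (z + ζ) - F z‖ := by
      simp [hf]
    rw [e] at h
    refine h.trans (le_of_eq ?_)
    ring
  have hlim : Tendsto (fun ζ : ℂ => ‖ζ‖⁻¹ * ‖F (z + ζ) - F z‖) (𝓝[≠] 0) (𝓝 ‖deriv F z‖) := by
    have h1 := (hasDerivAt_iff_tendsto_slope_zero.mp hFz).norm
    refine h1.congr' (Eventually.of_forall fun ζ => ?_)
    rw [norm_smul, norm_inv]
  have hlim2 : Tendsto (fun ζ : ℂ => 2 * M / (r - ‖ζ‖)) (𝓝[≠] 0) (𝓝 (2 * M / (r - ‖(0 : ℂ)‖))) := by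
    have hc : ContinuousAt (fun ζ : ℂ => 2 * M / (r - ‖ζ‖)) 0 := by
      apply ContinuousAt.div continuousAt_const
      · exact (continuous_const.sub continuous_norm).continuousAt
      · simpa using hr.ne'
    exact hc.tendsto.mono_left nhdsWithin_le_nhds
  rw [norm_zero, sub_zero] at hlim2
  refine le_of_tendsto_of_tendsto hlim hlim2 ?_
  have hev0 : ∀ᶠ ζ in 𝓝[≠] (0 : ℂ), ζ ∈ ball (0 : ℂ) r :=
    mem_nhdsWithin_of_mem_nhds (isOpen_ball.mem_nhds (mem_ball_self hr))
  have hev : ∀ᶠ ζ in 𝓝[≠] (0 : ℂ), ζ ∈ ball (0 : ℂ) r ∧ ζ ≠ 0 :=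
    hev0.and self_mem_nhdsWithin
  filter_upwards [hev] with ζ hζ
  have hn : 0 < ‖ζ‖ := norm_pos_iff.mpr hζ.2
  have := hbd ζ hζ.1
  rw [inv_mul_le_iff₀ hn, mul_comm]
  exact this

/-- Lipschitz bound near a real point. -/
theorem lip_near {F : ℂ → ℂ} {x : ℝ} {η C : ℝ} (hη : 0 < η) (hC : 0 < C)
    (hF : DifferentiableOn ℂ F (ball (x : ℂ) (2 * η) ∩ {z | 0 < z.im}))
    (hb : ∀ z ∈ ball (x : ℂ) (2 * η), 0 < z.im → |(F z).im| ≤ C * z.im) :
    ∀ z ∈ ball (x : ℂ) η ∩ {z | 0 < z.im}, ∀ w ∈ ball (x : ℂ) η ∩ {z | 0 < z.im},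
      ‖F w - F z‖ ≤ 6 * C * ‖w - z‖ := by
  have hopen : IsOpen (ball (x : ℂ) (2 * η) ∩ {z : ℂ | 0 < z.im}) :=
    isOpen_ball.inter (isOpen_lt continuous_const Complex.continuous_im)
  have hconv : Convex ℝ (ball (x : ℂ) η ∩ {z : ℂ | 0 < z.im}) :=
    (convex_ball _ _).inter (convex_halfSpace_im_gt 0)
  have hsub : ball (x : ℂ) η ∩ {z : ℂ | 0 < z.im} ⊆ ball (x : ℂ) (2 * η) ∩ {z : ℂ | 0 < z.im} :=
    inter_subset_inter_left _ (ball_subset_ball (by linarith))
  intro z hz w hw
  refine hconv.norm_image_sub_le_of_norm_deriv_le (𝕜 := ℂ) (f := F) ?_ ?_ hz hw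
  · intro y hy
    exact (hF y (hsub hy)).differentiableAt (hopen.mem_nhds (hsub hy))
  · intro y hy
    have hy0 : 0 < y.im := hy.2
    have hyη : ‖y - x‖ < η := by simpa [dist_eq_norm] using hy.1
    have hyim : y.im < η := by
      have h1 : |(y - x).im| ≤ ‖y - x‖ := Complex.abs_im_le_norm _
      simp only [sub_im, ofReal_im, sub_zero] at h1
      linarith [le_abs_self y.im]
    have hin : ball y y.im ⊆ ball (x : ℂ) (2 * η) ∩ {z : ℂ | 0 < z.im} := by
      intro u hu
      have hu' : ‖u - y‖ < y.im := by simpa [dist_eq_norm] using hu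
      refine ⟨?_, ?_⟩
      · rw [mem_ball, dist_eq_norm]
        calc ‖u - x‖ = ‖(u - y) + (y - x)‖ := by ring_nf
          _ ≤ ‖u - y‖ + ‖y - x‖ := norm_add_le _ _
          _ < 2 * η := by linarith
      · have h1 : |(u - y).im| ≤ ‖u - y‖ := Complex.abs_im_le_norm _
        simp only [sub_im] at h1
        have h2 := (abs_le.mp h1).1
        change 0 < u.im
        linarith
    have hd := deriv_le_of_im (F := F) (z := y) (r := y.im) (M := 3 * C * y.im) hy0 (by positivity)
      (hF.mono hin) (by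
        intro u hu
        have hu1 := hin hu
        have hu' : ‖u - y‖ < y.im := by simpa [dist_eq_norm] using hu
        have h1 : |(u - y).im| ≤ ‖u - y‖ := Complex.abs_im_le_norm _
        simp only [sub_im] at h1
        have h2 := (abs_le.mp h1).2
        have h3 := (abs_le.mp (hb u hu1.1 hu1.2)).2
        have h4 := (abs_le.mp (hb y (hsub hy).1 hy0)).1
        nlinarith)
    refine hd.trans (le_of_eq ?_)
    field_simp
    ring

/-- **Schwarz reflection** for functions with `|Im F| ≤ C Im z`. -/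
theorem reflect {F : ℂ → ℂ} {Ω : Set ℂ} {C : ℝ} (hC : 0 < C) (hΩ : IsOpen Ω)
    (hsym : ∀ z ∈ Ω, conj z ∈ Ω) (hF : DifferentiableOn ℂ F (Ω ∩ {z | 0 < z.im}))
    (hb : ∀ z ∈ Ω, 0 < z.im → |(F z).im| ≤ C * z.im) :
    ∃ G : ℂ → ℂ, DifferentiableOn ℂ G Ω ∧ (∀ z ∈ Ω, 0 < z.im → G z = F z) ∧
      (∀ z ∈ Ω, G (conj z) = conj (G z)) := by
  classical
  set H : Set ℂ := {z | 0 < z.im} with hH
  have hHo : IsOpen H := isOpen_lt continuous_const Complex.continuous_im
  -- limits at real points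
  have hcl : ∀ x : ℝ, (𝓝[H] (x : ℂ)).NeBot := by
    intro x
    rw [← mem_closure_iff_nhdsWithin_neBot, Metric.mem_closure_iff]
    intro ε hε
    refine ⟨x + (ε / 2 : ℝ) * I, ?_, ?_⟩
    · simp [hH, hε]
    · rw [dist_eq_norm]
      simp only [sub_add_cancel_left, norm_neg, norm_mul, norm_real, Real.norm_eq_abs, norm_I,
        mul_one]
      rw [abs_of_pos (by positivity)]
      linarith
  have hlim : ∀ x : ℝ, (x : ℂ) ∈ Ω → ∃ y : ℝ, Tendsto F (𝓝[H] (x : ℂ)) (𝓝 (y : ℂ)) := by
    intro x hx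
    obtain ⟨r, hr, hball⟩ := Metric.isOpen_iff.mp hΩ x hx
    have hL := lip_near (F := F) (x := x) (η := r / 2) (C := C) (by positivity) hC
      (hF.mono (inter_subset_inter_left _ ((ball_subset_ball (by linarith)).trans hball)))
      (fun z hz h0 => hb z (hball (ball_subset_ball (by linarith) hz)) h0)
    have hcau : Cauchy (map F (𝓝[H] (x : ℂ))) := by
      have := hcl x
      rw [Metric.cauchy_iff]
      refine ⟨inferInstance, ?_⟩
      intro ε hε
      set δ : ℝ := min (r / 2) (ε / (24 * C)) with hδ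
      have hδ0 : 0 < δ := lt_min (by positivity) (by positivity)
      refine ⟨F '' (ball (x : ℂ) δ ∩ H), image_mem_map ?_, ?_⟩
      · exact inter_mem (mem_nhdsWithin_of_mem_nhds (ball_mem_nhds _ hδ0)) self_mem_nhdsWithin
      · rintro _ ⟨u, hu, rfl⟩ _ ⟨v, hv, rfl⟩
        have hu' : ‖u - x‖ < δ := by simpa [dist_eq_norm] using hu.1
        have hv' : ‖v - x‖ < δ := by simpa [dist_eq_norm] using hv.1
        have h1 := hL v ⟨ball_subset_ball (min_le_left _ _) hv.1, hv.2⟩ u
          ⟨ball_subset_ball (min_le_left _ _) hu.1, hu.2⟩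
        rw [dist_eq_norm]
        have h2 : ‖u - v‖ ≤ 2 * δ := by
          calc ‖u - v‖ = ‖(u - x) - (v - x)‖ := by ring_nf
            _ ≤ ‖u - x‖ + ‖v - x‖ := norm_sub_le _ _
            _ ≤ 2 * δ := by linarith
        have h3 : δ ≤ ε / (24 * C) := min_le_right _ _
        calc ‖F u - F v‖ ≤ 6 * C * ‖u - v‖ := h1
          _ ≤ 6 * C * (2 * (ε / (24 * C))) := by gcongr; linarith
          _ = ε / 2 := by field_simp; ring
          _ < ε := by linarith
    obtain ⟨y, hy⟩ := CompleteSpace.complete hcau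
    have hy' : Tendsto F (𝓝[H] (x : ℂ)) (𝓝 y) := hy
    have := hcl x
    have him : y.im = 0 := by
      have h1 : Tendsto (fun z => (F z).im) (𝓝[H] (x : ℂ)) (𝓝 y.im) :=
        (Complex.continuous_im.tendsto y).comp hy'
      have h2 : Tendsto (fun z => (F z).im) (𝓝[H] (x : ℂ)) (𝓝 0) := by
        have h3 : Tendsto (fun z : ℂ => C * z.im) (𝓝[H] (x : ℂ)) (𝓝 (C * (x : ℂ).im)) :=
          ((continuous_const.mul Complex.continuous_im).tendsto _).mono_left nhdsWithin_le_nhds
        rw [ofReal_im, mul_zero] at h3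
        refine squeeze_zero_norm' ?_ h3
        filter_upwards [self_mem_nhdsWithin, mem_nhdsWithin_of_mem_nhds (hΩ.mem_nhds hx)]
          with z hz hzΩ
        rw [Real.norm_eq_abs]
        exact hb z hzΩ hz
      exact tendsto_nhds_unique h1 h2
    refine ⟨y.re, ?_⟩
    have : y = (y.re : ℂ) := Complex.ext (by simp) (by simp [him])
    rwa [← this]
  choose! b hbt using hlim
  set G : ℂ → ℂ := fun z => if 0 < z.im then F z else if z.im < 0 then conj (F (conj z))
    else (b z.re : ℂ) with hG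
  have hGpos : ∀ z : ℂ, 0 < z.im → G z = F z := fun z hz => by simp [hG, hz]
  have hGneg : ∀ z : ℂ, z.im < 0 → G z = conj (F (conj z)) := fun z hz => by
    simp [hG, hz, not_lt.mpr hz.le]
  have hG0 : ∀ z : ℂ, z.im = 0 → G z = (b z.re : ℂ) := fun z hz => by simp [hG, hz]
  have hGsym : ∀ z ∈ Ω, G (conj z) = conj (G z) := by
    intro z _
    rcases lt_trichotomy z.im 0 with h | h | h
    · rw [hGneg z h, hGpos (conj z) (by simpa using h)]
      simp
    · rw [hG0 z h, hG0 (conj z) (by simpa using h)]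
      simp
    · rw [hGpos z h, hGneg (conj z) (by simpa using h)]
      simp
  have hdpos : ∀ z ∈ Ω, 0 < z.im → DifferentiableAt ℂ G z := by
    intro z hz h0
    have hn : Ω ∩ H ∈ 𝓝 z := (hΩ.inter hHo).mem_nhds ⟨hz, h0⟩
    have h1 : DifferentiableAt ℂ F z := (hF z ⟨hz, h0⟩).differentiableAt hn
    refine h1.congr_of_eventuallyEq ?_
    filter_upwards [hHo.mem_nhds h0] with w hw
    exact hGpos w hw
  have hdneg : ∀ z ∈ Ω, z.im < 0 → DifferentiableAt ℂ G z := by
    intro z hz h0
    have hz' : conj z ∈ Ω := hsym z hz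
    have h0' : 0 < (conj z).im := by simpa using h0
    have h1 := hdpos _ hz' h0'
    have h2 : DifferentiableAt ℂ (fun w => conj (G (conj w))) z := by
      have := DifferentiableAt.conj_conj h1
      simpa [Function.comp_def] using this
    refine h2.congr_of_eventuallyEq ?_
    have hneg : {w : ℂ | w.im < 0} ∈ 𝓝 z :=
      (isOpen_lt Complex.continuous_im continuous_const).mem_nhds h0
    filter_upwards [hneg] with w hw
    rw [hGneg w hw, hGpos (conj w) (by simpa using hw)]
  have hbc : ∀ x : ℝ, (x : ℂ) ∈ Ω → ∃ η : ℝ, 0 < η ∧ ∀ z ∈ ball (x : ℂ) η,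
      ‖G z - b x‖ ≤ 6 * C * ‖z - x‖ := by
    intro x hx
    obtain ⟨r, hr, hball⟩ := Metric.isOpen_iff.mp hΩ x hx
    have hL := lip_near (F := F) (x := x) (η := r / 2) (C := C) (by positivity) hC
      (hF.mono (inter_subset_inter_left _ ((ball_subset_ball (by linarith)).trans hball)))
      (fun z hz h0 => hb z (hball (ball_subset_ball (by linarith) hz)) h0)
    have hup : ∀ z ∈ ball (x : ℂ) (r / 2), 0 < z.im → ∀ t : ℝ, |t - x| < r / 2 →
        ‖F z - b t‖ ≤ 6 * C * ‖z - t‖ := by
      intro z hz h0 t ht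
      have htb : (t : ℂ) ∈ ball (x : ℂ) (r / 2) := by
        rw [mem_ball, dist_eq_norm, ← ofReal_sub, norm_real]
        exact ht
      have htΩ : (t : ℂ) ∈ Ω := hball (ball_subset_ball (by linarith) htb)
      have := hcl t
      have h1 : Tendsto (fun w => ‖F z - F w‖) (𝓝[H] (t : ℂ)) (𝓝 ‖F z - b t‖) :=
        (tendsto_const_nhds.sub (hbt t htΩ)).norm
      have h2 : Tendsto (fun w : ℂ => 6 * C * ‖z - w‖) (𝓝[H] (t : ℂ)) (𝓝 (6 * C * ‖z - t‖)) := by
        have : Continuous fun w : ℂ => 6 * C * ‖z - w‖ := by fun_prop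
        exact (this.tendsto _).mono_left nhdsWithin_le_nhds
      refine le_of_tendsto_of_tendsto h1 h2 ?_
      filter_upwards [self_mem_nhdsWithin,
        mem_nhdsWithin_of_mem_nhds (isOpen_ball.mem_nhds htb)] with w hw hwb
      exact hL w ⟨hwb, hw⟩ z ⟨hz, h0⟩
    have hrr : ∀ t : ℝ, |t - x| < r / 2 → ‖(b t : ℂ) - b x‖ ≤ 6 * C * ‖(t : ℂ) - x‖ := by
      intro t ht
      have htb : (t : ℂ) ∈ ball (x : ℂ) (r / 2) := by
        rw [mem_ball, dist_eq_norm, ← ofReal_sub, norm_real]
        exact ht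
      have htΩ : (t : ℂ) ∈ Ω := hball (ball_subset_ball (by linarith) htb)
      have := hcl t
      have h1 : Tendsto (fun w => ‖F w - b x‖) (𝓝[H] (t : ℂ)) (𝓝 ‖(b t : ℂ) - b x‖) :=
        ((hbt t htΩ).sub tendsto_const_nhds).norm
      have h2 : Tendsto (fun w : ℂ => 6 * C * ‖w - x‖) (𝓝[H] (t : ℂ)) (𝓝 (6 * C * ‖(t : ℂ) - x‖)) := by
        have : Continuous fun w : ℂ => 6 * C * ‖w - x‖ := by fun_prop
        exact (this.tendsto _).mono_left nhdsWithin_le_nhds
      refine le_of_tendsto_of_tendsto h1 h2 ?_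
      filter_upwards [self_mem_nhdsWithin,
        mem_nhdsWithin_of_mem_nhds (isOpen_ball.mem_nhds htb)] with w hw hwb
      exact hup w hwb hw x (by simpa using (by positivity : 0 < r / 2))
    refine ⟨r / 2, by positivity, ?_⟩
    intro z hz
    have hx0 : |x - x| < r / 2 := by simpa using (by positivity : 0 < r / 2)
    rcases lt_trichotomy z.im 0 with h | h | h
    · rw [hGneg z h]
      have hz' : conj z ∈ ball (x : ℂ) (r / 2) := by
        rw [mem_ball, dist_eq_norm] at hz ⊢
        have : conj z - x = conj (z - x) := by simp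
        rw [this, RCLike.norm_conj]
        exact hz
      have h1 := hup (conj z) hz' (by simpa using h) x hx0
      have e1 : conj (F (conj z)) - (b x : ℂ) = conj (F (conj z) - b x) := by simp
      have e2 : (conj z : ℂ) - x = conj (z - x) := by simp
      rw [e1, RCLike.norm_conj]
      rw [e2, RCLike.norm_conj] at h1
      exact h1
    · rw [hG0 z h]
      have ez : z = (z.re : ℂ) := Complex.ext (by simp) (by simp [h])
      have ht : |z.re - x| < r / 2 := by
        rw [mem_ball, dist_eq_norm] at hz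
        rw [ez, ← ofReal_sub, norm_real] at hz
        exact hz
      have := hrr z.re ht
      rwa [← ez] at this
    · rw [hGpos z h]
      exact hup z hz h x hx0
  have hGc : ContinuousOn G Ω := by
    intro z hz
    rcases lt_trichotomy z.im 0 with h | h | h
    · exact (hdneg z hz h).continuousAt.continuousWithinAt
    · have ez : z = (z.re : ℂ) := Complex.ext (by simp) (by simp [h])
      have hzΩ : ((z.re : ℝ) : ℂ) ∈ Ω := by rw [← ez]; exact hz
      obtain ⟨η, hη, hb'⟩ := hbc z.re hzΩ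
      rw [← ez] at hb'
      refine ContinuousAt.continuousWithinAt ?_
      rw [ContinuousAt, tendsto_iff_norm_sub_tendsto_zero, hG0 z h]
      have h2 : Tendsto (fun w : ℂ => 6 * C * ‖w - z‖) (𝓝 z) (𝓝 0) := by
        have : Continuous fun w : ℂ => 6 * C * ‖w - z‖ := by fun_prop
        simpa using this.tendsto z
      refine squeeze_zero_norm' ?_ h2
      filter_upwards [ball_mem_nhds z hη] with w hw
      rw [norm_norm]
      exact hb' w hw
    · exact (hdpos z hz h).continuousAt.continuousWithinAt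
  refine ⟨G, diff_off_line hΩ hGc ?_, fun z _ h => hGpos z h, hGsym⟩
  intro z hz h
  rcases lt_or_gt_of_ne h with h | h
  · exact hdneg z hz h
  · exact hdpos z hz h

end Vale.Agent.P153.R2.L1
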