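import Vale.Agent.P153.R2.L1.Stmt
import Mathlib.Analysis.Complex.OpenMapping

/-!
# P153, block L1: composition and uniqueness of hydrodynamically normalised maps
-/

open Set Filter Topology Metric Bornology Complex

namespace Vale.Agent.P153.R2.L1

theorem tendsto_mul_I : Tendsto (fun y : ℝ => (y : ℂ) * Complex.I) atTop (cobounded ℂ ⊓ 𝓟 HH) := by
  refine tendsto_inf.2 ⟨?_, ?_⟩
  · rw [← tendsto_norm_atTop_iff_cobounded]
    simp only [norm_mul, norm_I, mul_one, norm_real, Real.norm_eq_abs]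
    exact tendsto_abs_atTop_atTop
  · rw [tendsto_principal]
    filter_upwards [eventually_gt_atTop 0] with y hy
    simp [HH, hy]

instance neBot_cob : (cobounded ℂ ⊓ 𝓟 HH).NeBot := tendsto_mul_I.neBot

namespace IsHydro

variable {K K₁ : Set ℂ} {g g₁ : ℂ → ℂ}

/-- the vertical direction -/
theorem tendsto_mul_I' (h : IsHydro K g) :
    Tendsto (fun y : ℝ => (y : ℂ) * Complex.I) atTop (cobounded ℂ ⊓ 𝓟 (HH \ K)) := by
  refine tendsto_inf.2 ⟨tendsto_mul_I.mono_right inf_le_left, ?_⟩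
  rw [tendsto_principal]
  obtain ⟨M, hM⟩ := h.bdd.exists_norm_le
  filter_upwards [eventually_gt_atTop 0, eventually_gt_atTop M] with y hy hy'
  refine ⟨by simp [HH, hy], fun hc => ?_⟩
  have := hM _ hc
  rw [norm_mul, norm_I, mul_one, norm_real, Real.norm_eq_abs, abs_of_pos hy] at this
  linarith

theorem neBot (h : IsHydro K g) : (cobounded ℂ ⊓ 𝓟 (HH \ K)).NeBot := h.tendsto_mul_I'.neBot

/-- the capacity from the limit -/
theorem hcap_eq (h : IsHydro K g) {a : ℂ}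
    (ha : Tendsto (fun z => z * (g z - z)) (cobounded ℂ ⊓ 𝓟 (HH \ K)) (𝓝 a)) :
    hcap g = a.re := by
  have h1 := (continuous_re.tendsto a).comp (ha.comp h.tendsto_mul_I')
  refine Tendsto.limUnder_eq (h1.congr fun y => ?_)
  simp only [Function.comp_apply, mul_re, ofReal_re, ofReal_im, I_re, I_im, mul_im, sub_re, sub_im]
  ring

/-- infinity corresponds to infinity -/
theorem tendsto_inv_cobounded (h : IsHydro K g) :
    Tendsto (inv K g) (cobounded ℂ ⊓ 𝓟 HH) (cobounded ℂ ⊓ 𝓟 (HH \ K)) := by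
  obtain ⟨R₀, hR₀, hb⟩ := h.bdd_of_bdd
  refine tendsto_inf.2 ⟨?_, ?_⟩
  · rw [← tendsto_norm_atTop_iff_cobounded, Filter.tendsto_atTop]
    intro M
    have h1 : ∀ᶠ w in cobounded ℂ ⊓ 𝓟 HH, max M R₀ + 1 < ‖w‖ :=
      (tendsto_norm_cobounded_atTop.eventually (eventually_gt_atTop _)).filter_mono inf_le_left
    filter_upwards [h1, mem_inf_of_right (mem_principal_self _)] with w hw hwH
    by_contra hcon
    push Not at hcon
    have h2 := (hb (max M R₀) (le_max_right _ _)).2.2 _ (h.inv_mem hwH)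
      (hcon.le.trans (le_max_left _ _))
    rw [h.g_inv hwH] at h2
    linarith
  · rw [tendsto_principal]
    filter_upwards [mem_inf_of_right (mem_principal_self _)] with w hwH
    exact h.inv_mem hwH

theorem inv_sub_tendsto (h : IsHydro K g) :
    Tendsto (fun ζ => inv K g ζ - ζ) (cobounded ℂ ⊓ 𝓟 HH) (𝓝 0) := by
  have h1 := (h.lim.comp h.tendsto_inv_cobounded).neg
  rw [neg_zero] at h1
  refine h1.congr' ?_
  filter_upwards [mem_inf_of_right (mem_principal_self _)] with w hwH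
  simp only [Function.comp_apply, h.g_inv hwH]
  ring

/-- boundary behaviour -/
theorem im_tendsto_zero (h : IsHydro K g) {p : ℂ} (hp : p ∉ HH \ K) :
    Tendsto (fun z => (g z).im) (𝓝[HH \ K] p) (𝓝 0) := by
  obtain ⟨R₀, hR₀, hb⟩ := h.bdd_of_bdd
  set R := max R₀ (‖p‖ + 1) with hR
  have hbR := (hb R (le_max_left _ _)).2.2
  rw [Metric.tendsto_nhds]
  intro ε hε
  have hcomp := h.isCompact_preimage (ε := ε) (M := R + 1) hε
  have h1 : {z | z ∈ HH \ K ∧ ε ≤ (g z).im ∧ ‖g z‖ ≤ R + 1}ᶜ ∈ 𝓝 p :=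
    hcomp.isClosed.isOpen_compl.mem_nhds (fun hc => hp hc.1)
  have h2 : ∀ᶠ z in 𝓝 p, ‖z‖ < ‖p‖ + 1 :=
    continuous_norm.continuousAt.eventually (gt_mem_nhds (by linarith))
  filter_upwards [mem_nhdsWithin_of_mem_nhds h1, h2.filter_mono nhdsWithin_le_nhds,
    self_mem_nhdsWithin] with z hz1 hz2 hz3
  have h3 : 0 < (g z).im := h.mapsTo hz3
  rw [Real.dist_eq, sub_zero, abs_of_pos h3]
  by_contra hcon
  push Not at hcon
  exact hz1 ⟨hz3, hcon, hbR z hz3 (hz2.le.trans (le_max_right _ _))⟩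

/-- the hull of the composition -/
theorem sdiff_comp (h₁ : IsHydro K₁ g₁) (hK : HH ∩ K₁ ⊆ K) :
    HH \ (g₁ '' ((HH \ K₁) ∩ K)) = g₁ '' (HH \ K) := by
  have hsub : HH \ K ⊆ HH \ K₁ := fun z hz => ⟨hz.1, fun hc => hz.2 (hK ⟨hz.1, hc⟩)⟩
  ext w
  constructor
  · rintro ⟨hw, hwn⟩
    refine ⟨inv K₁ g₁ w, ⟨(h₁.inv_mem hw).1, fun hc => hwn ?_⟩, h₁.g_inv hw⟩
    exact ⟨inv K₁ g₁ w, ⟨h₁.inv_mem hw, hc⟩, h₁.g_inv hw⟩
  · rintro ⟨z, hz, rfl⟩
    refine ⟨h₁.mapsTo (hsub hz), ?_⟩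
    rintro ⟨z', hz', he⟩
    have := h₁.inj hz'.1 (hsub hz) he
    rw [this] at hz'
    exact hz.2 hz'.2

/-- **composition** -/
theorem comp (h : IsHydro K g) (h₁ : IsHydro K₁ g₁) (hK : HH ∩ K₁ ⊆ K) :
    IsHydro (g₁ '' ((HH \ K₁) ∩ K)) (g ∘ inv K₁ g₁) := by
  have hsub : HH \ K ⊆ HH \ K₁ := fun z hz => ⟨hz.1, fun hc => hz.2 (hK ⟨hz.1, hc⟩)⟩
  have hmaps : MapsTo (inv K₁ g₁) (g₁ '' (HH \ K)) (HH \ K) := by
    rintro _ ⟨z, hz, rfl⟩
    rw [h₁.inv_g (hsub hz)]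
    exact hz
  have hHH : g₁ '' (HH \ K) ⊆ HH := by
    rintro _ ⟨z, hz, rfl⟩
    exact h₁.mapsTo (hsub hz)
  constructor
  · obtain ⟨R₀, hR₀, hb⟩ := h₁.bdd_of_bdd
    obtain ⟨M, hM⟩ := h.bdd.exists_norm_le
    refine (isBounded_closedBall (x := (0 : ℂ)) (r := max R₀ M + 1)).subset ?_
    rintro _ ⟨z, ⟨hz1, hz2⟩, rfl⟩
    rw [mem_closedBall_zero_iff]
    exact (hb (max R₀ M) (le_max_left _ _)).2.2 z hz1 ((hM z hz2).trans (le_max_right _ _))
  · rw [h₁.sdiff_comp hK]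
    have : g₁ '' (HH \ K) = HH ∩ inv K₁ g₁ ⁻¹' (HH \ K) := by
      ext w
      constructor
      · intro hw
        exact ⟨hHH hw, hmaps hw⟩
      · rintro ⟨hw1, hw2⟩
        exact ⟨_, hw2, h₁.g_inv hw1⟩
    rw [this]
    exact h₁.inv_cont.isOpen_inter_preimage isOpen_HH h.isOpen
  · rw [h₁.sdiff_comp hK]
    exact h.diff.comp (h₁.inv_diff.mono hHH) hmaps
  · rw [h₁.sdiff_comp hK]
    rintro _ ⟨z, hz, rfl⟩ _ ⟨z', hz', rfl⟩ he
    simp only [Function.comp_apply, h₁.inv_g (hsub hz), h₁.inv_g (hsub hz')] at he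
    rw [h.inj hz hz' he]
  · rw [h₁.sdiff_comp hK]
    apply Subset.antisymm
    · rintro _ ⟨w, hw, rfl⟩
      exact h.mapsTo (hmaps hw)
    · intro t ht
      refine ⟨g₁ (inv K g t), ⟨inv K g t, h.inv_mem ht, rfl⟩, ?_⟩
      simp only [Function.comp_apply]
      rw [h₁.inv_g (hsub (h.inv_mem ht)), h.g_inv ht]
  · rw [h₁.sdiff_comp hK]
    have hT : Tendsto (inv K₁ g₁) (cobounded ℂ ⊓ 𝓟 (g₁ '' (HH \ K)))
        (cobounded ℂ ⊓ 𝓟 (HH \ K)) := by
      refine tendsto_inf.2 ⟨?_, ?_⟩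
      · refine (h₁.tendsto_inv_cobounded.mono_left ?_).mono_right inf_le_left
        exact inf_le_inf_left _ (principal_mono.2 hHH)
      · rw [tendsto_principal]
        filter_upwards [mem_inf_of_right (mem_principal_self _)] with w hw
        exact hmaps hw
    have hT₁ : Tendsto (inv K₁ g₁) (cobounded ℂ ⊓ 𝓟 (g₁ '' (HH \ K)))
        (cobounded ℂ ⊓ 𝓟 (HH \ K₁)) :=
      hT.mono_right (inf_le_inf_left _ (principal_mono.2 hsub))
    have h3 := (h.lim.comp hT).sub (h₁.lim.comp hT₁)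
    rw [sub_zero] at h3
    refine h3.congr' ?_
    filter_upwards [mem_inf_of_right (mem_principal_self _)] with w hw
    simp only [Function.comp_apply, h₁.g_inv (hHH hw)]
    ring

/-- capacities add up (in terms of the limits which define them) -/
theorem cap_comp (_h : IsHydro K g) (h₁ : IsHydro K₁ g₁) (hK : HH ∩ K₁ ⊆ K) {a a₁ : ℂ}
    (ha : Tendsto (fun z => z * (g z - z)) (cobounded ℂ ⊓ 𝓟 (HH \ K)) (𝓝 a))
    (ha₁ : Tendsto (fun z => z * (g₁ z - z)) (cobounded ℂ ⊓ 𝓟 (HH \ K₁)) (𝓝 a₁)) :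
    Tendsto (fun w => w * ((g ∘ inv K₁ g₁) w - w))
      (cobounded ℂ ⊓ 𝓟 (HH \ (g₁ '' ((HH \ K₁) ∩ K)))) (𝓝 (a - a₁)) := by
  have hsub : HH \ K ⊆ HH \ K₁ := fun z hz => ⟨hz.1, fun hc => hz.2 (hK ⟨hz.1, hc⟩)⟩
  have hmaps : MapsTo (inv K₁ g₁) (g₁ '' (HH \ K)) (HH \ K) := by
    rintro _ ⟨z, hz, rfl⟩
    rw [h₁.inv_g (hsub hz)]
    exact hz
  have hHH : g₁ '' (HH \ K) ⊆ HH := by
    rintro _ ⟨z, hz, rfl⟩
    exact h₁.mapsTo (hsub hz)
  rw [h₁.sdiff_comp hK]
  have hT : Tendsto (inv K₁ g₁) (cobounded ℂ ⊓ 𝓟 (g₁ '' (HH \ K)))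
      (cobounded ℂ ⊓ 𝓟 (HH \ K)) := by
    refine tendsto_inf.2 ⟨?_, ?_⟩
    · refine (h₁.tendsto_inv_cobounded.mono_left ?_).mono_right inf_le_left
      exact inf_le_inf_left _ (principal_mono.2 hHH)
    · rw [tendsto_principal]
      filter_upwards [mem_inf_of_right (mem_principal_self _)] with w hw
      exact hmaps hw
  have hT₁ : Tendsto (inv K₁ g₁) (cobounded ℂ ⊓ 𝓟 (g₁ '' (HH \ K)))
      (cobounded ℂ ⊓ 𝓟 (HH \ K₁)) :=
    hT.mono_right (inf_le_inf_left _ (principal_mono.2 hsub))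
  have hq : Tendsto (fun z => 1 + (g₁ z - z) * z⁻¹) (cobounded ℂ ⊓ 𝓟 (HH \ K₁)) (𝓝 (1 + 0 * 0)) :=
    tendsto_const_nhds.add (h₁.lim.mul (tendsto_inv₀_cobounded.mono_left inf_le_left))
  have h3 := (hq.comp hT₁).mul ((ha.comp hT).sub (ha₁.comp hT₁))
  rw [show (1 + 0 * 0 : ℂ) * (a - a₁) = a - a₁ by ring] at h3
  refine h3.congr' ?_
  filter_upwards [mem_inf_of_right (mem_principal_self _)] with w hw
  have hne : inv K₁ g₁ w ≠ 0 := by
    intro h0
    have := (hmaps hw).1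
    rw [h0] at this
    simp [HH] at this
  simp only [Function.comp_apply, h₁.g_inv (hHH hw)]
  field_simp
  ring

/-- **uniqueness** -/
theorem unique {K' : Set ℂ} {g' : ℂ → ℂ} (h : IsHydro K g) (h' : IsHydro K' g')
    (hK : HH \ K = HH \ K') : EqOn g g' (HH \ K) := by
  have hmem : ∀ z ∈ HH, z ∈ K ↔ z ∈ K' := by
    intro z hz
    constructor
    · intro h1
      by_contra h2
      have : z ∈ HH \ K := hK ▸ ⟨hz, h2⟩
      exact this.2 h1
    · intro h1
      by_contra h2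
      have : z ∈ HH \ K' := hK ▸ ⟨hz, h2⟩
      exact this.2 h1
  have hs1 : HH ∩ K ⊆ K' := fun z hz => (hmem z hz.1).1 hz.2
  have hs2 : HH ∩ K' ⊆ K := fun z hz => (hmem z hz.1).2 hz.2
  have c1 := h'.comp h hs1
  have c2 := h.comp h' hs2
  have e1 : HH \ (g '' ((HH \ K) ∩ K')) = HH := by
    rw [h.sdiff_comp hs1, ← hK, h.image]
  have e2 : HH \ (g' '' ((HH \ K') ∩ K)) = HH := by
    rw [h'.sdiff_comp hs2, hK, h'.image]
  set f : ℂ → ℂ := g' ∘ inv K g with hf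
  -- the imaginary parts agree
  have him : ∀ w ∈ HH, (f w).im = w.im := by
    intro w hw
    apply le_antisymm
    · exact c1.im_le (e1.symm ▸ hw)
    · have hfw : f w ∈ HH := c1.mapsTo (e1.symm ▸ hw)
      have h3 := c2.im_le (e2.symm ▸ hfw)
      have h4 : (g ∘ inv K' g') (f w) = w := by
        simp only [hf, Function.comp_apply]
        rw [h'.inv_g (hK ▸ h.inv_mem hw), h.g_inv hw]
      rw [h4] at h3
      exact h3
  have hfd : DifferentiableOn ℂ f HH := by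
    have := c1.diff
    rwa [e1] at this
  have hdd : DifferentiableOn ℂ (fun w => f w - w) HH := hfd.sub differentiableOn_id
  have han : AnalyticOnNhd ℂ (fun w => f w - w) HH := hdd.analyticOnNhd isOpen_HH
  have hconst : ∃ c, ∀ w ∈ HH, f w - w = c := by
    rcases han.is_constant_or_isOpen convex_HH.isPreconnected with h5 | h5
    · exact h5
    · exfalso
      have h6 := h5 HH subset_rfl isOpen_HH
      have hI : (Complex.I : ℂ) ∈ HH := by simp [HH]
      have h7 : f Complex.I - Complex.I ∈ (fun w => f w - w) '' HH := ⟨_, hI, rfl⟩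
      obtain ⟨ε, hε, h8⟩ := Metric.isOpen_iff.1 h6 _ h7
      have h9 : f Complex.I - Complex.I + (ε / 2 : ℝ) * Complex.I ∈
          ball (f Complex.I - Complex.I) ε := by
        rw [mem_ball, dist_eq_norm, add_sub_cancel_left, norm_mul, norm_I, mul_one, norm_real,
          Real.norm_eq_abs, abs_of_pos (by positivity)]
        linarith
      obtain ⟨w, hw, hwe⟩ := h8 h9
      have h10 := congrArg Complex.im hwe
      simp only [sub_im, add_im, him w hw, him _ hI, sub_self, zero_add, mul_im, ofReal_re,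
        I_im, mul_one, ofReal_im, I_re, mul_zero, add_zero] at h10
      linarith
  obtain ⟨c, hc⟩ := hconst
  have hc0 : c = 0 := by
    have hlim := c1.lim
    rw [e1] at hlim
    have hne : (cobounded ℂ ⊓ 𝓟 HH).NeBot := neBot_cob
    refine tendsto_nhds_unique (tendsto_const_nhds.congr' ?_) hlim
    filter_upwards [mem_inf_of_right (mem_principal_self _)] with w hw
    exact (hc w hw).symm
  intro z hz
  have h11 := hc (g z) (h.mapsTo hz)
  rw [hc0, sub_eq_zero] at h11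
  simp only [hf, Function.comp_apply, h.inv_g hz] at h11
  exact h11.symm

end IsHydro

theorem s_unique : S_unique := fun _ _ _ _ h h' hK => h.unique h' hK

theorem s_proper : S_proper := fun _ _ h _ hp => h.im_tendsto_zero hp

theorem s_inv : S_inv := fun _ _ h => h.inv_sub_tendsto

/-- additivity of the capacity, from the existence of the limit -/
theorem s_comp_of (hcap_lim : S_cap) : S_comp := by
  intro K K₁ g g₁ h h₁ hK
  refine ⟨h.comp h₁ hK, ?_⟩
  have h2 := (h.comp h₁ hK).hcap_eq (h.cap_comp h₁ hK (hcap_lim K g h) (hcap_lim K₁ g₁ h₁))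
  rw [h2, sub_re, ofReal_re, ofReal_re]
  ring

end Vale.Agent.P153.R2.L1
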