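import Vale.Agent.P153.R2.L1.Stmt
import Vale.Agent.P153.R2.L1.Rmt
import Vale.Agent.P153.R2.TOP.Sep

/-!
# P153, SLE side, block L1: slit domains

`slit_isPreconnected`, `slit_noBdd`, `slit_isSimplyConnected`: a plane domain without holes minus a
simple curve which starts on its boundary is again a domain without holes.
`isHull_curve`: a simple curve in the half-plane which starts on the real line is a hull.
-/

open Set Filter Topology Metric Bornology

namespace P153.TOP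

section Slit

variable {D : Set ℂ} {γ : ℝ → ℂ} {t : ℝ}

/-- the slit domain -/
def slit (D : Set ℂ) (γ : ℝ → ℂ) (t : ℝ) : Set ℂ := D \ γ '' Icc 0 t

theorem slit_eq (D : Set ℂ) (γ : ℝ → ℂ) (t : ℝ) : slit D γ t = (γ '' Icc 0 t ∪ Dᶜ)ᶜ := by
  ext z
  simp only [slit, Set.mem_sdiff, mem_compl_iff, mem_union, not_or, not_not]
  tauto

theorem isOpen_slit (hD : IsOpen D) (hγ : ContinuousOn γ (Icc 0 t)) : IsOpen (slit D γ t) :=
  hD.sdiff (isCompact_Icc.image_of_continuousOn hγ).isClosed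

theorem slit_inter (ht : 0 ≤ t) (h0 : γ 0 ∉ D) (h1 : ∀ s ∈ Ioc 0 t, γ s ∈ D) :
    γ '' Icc 0 t ∩ Dᶜ = {γ 0} := by
  apply Subset.antisymm
  · rintro _ ⟨⟨s, hs, rfl⟩, hsD⟩
    rcases eq_or_lt_of_le hs.1 with h | h
    · rw [← h]; rfl
    · exact absurd (h1 s ⟨h, hs.2⟩) hsD
  · rintro _ rfl
    exact ⟨⟨0, ⟨le_rfl, ht⟩, rfl⟩, h0⟩

/-- A simple curve which starts on the boundary does not disconnect the domain. -/
theorem slit_joinedIn (hD : IsOpen D) (hc : IsPreconnected D) (ht : 0 ≤ t)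
    (hγ : ContinuousOn γ (Icc 0 t)) (hinj : InjOn γ (Icc 0 t)) (h0 : γ 0 ∉ D)
    (h1 : ∀ s ∈ Ioc 0 t, γ s ∈ D) {p q : ℂ} (hp : p ∈ slit D γ t) (hq : q ∈ slit D γ t) :
    JoinedIn (slit D γ t) p q := by
  have hA : IsCompact (γ '' Icc 0 t) := isCompact_Icc.image_of_continuousOn hγ
  have j1 : JoinedIn (γ '' Icc 0 t)ᶜ p q :=
    joinedIn_of_hasLogOn hA (hasLogOn_arc hγ hinj) hp.2 hq.2
  have j2 : JoinedIn (Dᶜ)ᶜ p q := by
    rw [compl_compl]
    exact joinedIn_of_preconnected hD hc Subset.rfl hp.1 hq.1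
  rw [slit_eq]
  refine janiszewski_closed hA hD.isClosed_compl ?_ j1 j2
  rw [slit_inter ht h0 h1]
  exact isPreconnected_singleton

theorem slit_isPreconnected (hD : IsOpen D) (hc : IsPreconnected D) (ht : 0 ≤ t)
    (hγ : ContinuousOn γ (Icc 0 t)) (hinj : InjOn γ (Icc 0 t)) (h0 : γ 0 ∉ D)
    (h1 : ∀ s ∈ Ioc 0 t, γ s ∈ D) : IsPreconnected (slit D γ t) := by
  rcases (slit D γ t).eq_empty_or_nonempty with h | ⟨p, hp⟩
  · rw [h]; exact isPreconnected_empty
  · exact (show IsPathConnected (slit D γ t) from ⟨p, hp, fun {q} hq =>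
      slit_joinedIn hD hc ht hγ hinj h0 h1 hp hq⟩).isConnected.isPreconnected

/-- The slit domain has no holes. -/
theorem slit_noBdd (hb : NoBdd D) (ht : 0 ≤ t) (hγ : ContinuousOn γ (Icc 0 t)) (h0 : γ 0 ∉ D) :
    NoBdd (slit D γ t) := by
  have hsub : Dᶜ ⊆ (slit D γ t)ᶜ := compl_subset_compl.2 sdiff_subset
  intro z hz
  by_cases hzD : z ∈ D
  · have hzγ : z ∈ γ '' Icc 0 t := by
      by_contra h
      exact hz ⟨hzD, h⟩
    obtain ⟨C, hC, hzC, hCD, hCb⟩ := hb _ h0
    refine ⟨γ '' Icc 0 t ∪ C, ?_, Or.inl hzγ, ?_, fun h => hCb (h.subset subset_union_right)⟩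
    · exact (isPreconnected_Icc.image γ hγ).union (γ 0) ⟨0, ⟨le_rfl, ht⟩, rfl⟩ hzC hC
    · refine union_subset (fun w hw h => h.2 hw) (hCD.trans hsub)
  · obtain ⟨C, hC, hzC, hCD, hCb⟩ := hb _ hzD
    exact ⟨C, hC, hzC, hCD.trans hsub, hCb⟩

/-- The slit domain is not empty (a curve has no interior). -/
theorem slit_nonempty (hD : IsOpen D) (hne : D.Nonempty) (hγ : ContinuousOn γ (Icc 0 t))
    (hinj : InjOn γ (Icc 0 t)) : (slit D γ t).Nonempty := by
  by_contra hcon
  rw [not_nonempty_iff_eq_empty] at hcon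
  have hsub : D ⊆ γ '' Icc 0 t := by
    intro z hz
    by_contra h
    have : z ∈ slit D γ t := ⟨hz, h⟩
    rw [hcon] at this
    exact this
  -- a small circle would have logarithms
  obtain ⟨p, hp⟩ := hne
  obtain ⟨ε, hε, hεD⟩ := Metric.isOpen_iff.1 hD p hp
  have hA : IsCompact (γ '' Icc 0 t) := isCompact_Icc.image_of_continuousOn hγ
  set c := Metric.sphere p (ε / 2) with hc
  have hcs : c ⊆ γ '' Icc 0 t := by
    intro z hz
    refine hsub (hεD ?_)
    rw [hc, Metric.mem_sphere] at hz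
    rw [Metric.mem_ball, hz]
    linarith
  -- pull back to a closed subset of the interval
  have : Nonempty ℝ := ⟨0⟩
  set K : Set ℝ := Icc 0 t ∩ γ ⁻¹' c with hK
  have hKcl : IsClosed K := hγ.preimage_isClosed_of_isClosed isClosed_Icc Metric.isClosed_sphere
  have hKi : γ '' K = c := by
    apply Subset.antisymm
    · rintro _ ⟨s, hs, rfl⟩
      exact hs.2
    · intro z hz
      obtain ⟨s, hs, rfl⟩ := hcs hz
      exact ⟨s, ⟨hs, hz⟩, rfl⟩
  have hlog : HasLogOn c := by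
    rw [← hKi]
    exact (hasLogOn_subset_Icc hKcl inter_subset_left).image_of_isCompact
      (isCompact_Icc.of_isClosed_subset hKcl inter_subset_left) (hγ.mono inter_subset_left)
      (hinj.mono inter_subset_left)
  refine not_logOn_circle (p := p) (R := ε / 2) (by positivity) (n := 1) one_ne_zero
    (hlog _ ?_ ?_)
  · simp only [zpow_one]
    fun_prop
  · intro z hz h
    rw [zpow_one, sub_eq_zero] at h
    rw [h, hc, Metric.mem_sphere, dist_self] at hz
    linarith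

/-- **Slit domains are simply connected.** -/
theorem slit_isSimplyConnected (hD : IsOpen D) (hc : IsConnected D) (hb : NoBdd D) (ht : 0 ≤ t)
    (hγ : ContinuousOn γ (Icc 0 t)) (hinj : InjOn γ (Icc 0 t)) (h0 : γ 0 ∉ D)
    (h1 : ∀ s ∈ Ioc 0 t, γ s ∈ D) : IsSimplyConnected (slit D γ t) :=
  RMT.isSimplyConnected_of_noBdd (isOpen_slit hD hγ)
    ⟨slit_nonempty hD hc.nonempty hγ hinj, slit_isPreconnected hD hc.isPreconnected ht hγ hinj h0 h1⟩
    (fun h => h0 ((h ▸ mem_univ (γ 0) : γ 0 ∈ slit D γ t).1)) (slit_noBdd hb ht hγ h0)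

end Slit

end P153.TOP

namespace Vale.Agent.P153.R2.L1

open P153.TOP

/-- The half-plane has no holes. -/
theorem noBdd_HH : NoBdd HH := by
  intro z hz
  refine ⟨{w : ℂ | w.im ≤ 0}, (convex_halfSpace_im_le 0).isPreconnected,
    (not_lt.1 hz : z.im ≤ 0), ?_, ?_⟩
  · intro w hw h
    have h2 : w.im ≤ 0 := hw
    have h3 : 0 < w.im := h
    linarith
  · intro h
    obtain ⟨R, hR⟩ := h.subset_closedBall (0 : ℂ)
    have h1 : ((|R| + 1 : ℝ) : ℂ) ∈ Metric.closedBall (0 : ℂ) R := hR (by simp)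
    rw [mem_closedBall_zero_iff, Complex.norm_real, Real.norm_eq_abs,
      abs_of_pos (by positivity)] at h1
    linarith [le_abs_self R]

/-- **A simple curve which starts on the real line is a hull.** -/
theorem isHull_curve {γ : ℝ → ℂ} {t : ℝ} (ht : 0 ≤ t) (hγ : ContinuousOn γ (Icc 0 t))
    (hinj : InjOn γ (Icc 0 t)) (h0 : (γ 0).im = 0) (h1 : ∀ s ∈ Ioc 0 t, 0 < (γ s).im) :
    IsHull (γ '' Icc 0 t) := by
  have hHo : IsOpen HH := isOpen_lt continuous_const Complex.continuous_im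
  have hHc : IsPreconnected HH := (convex_halfSpace_im_gt 0).isPreconnected
  refine ⟨isCompact_Icc.image_of_continuousOn hγ, ?_, ?_, ?_⟩
  · rintro _ ⟨s, hs, rfl⟩
    rcases eq_or_lt_of_le hs.1 with h | h
    · rw [← h, h0]
    · exact (h1 s ⟨h, hs.2⟩).le
  · refine (isPreconnected_Icc.image γ hγ).union (γ 0) ⟨0, ⟨le_rfl, ht⟩, rfl⟩ h0 ?_
    have : {z : ℂ | z.im = 0} = range (fun x : ℝ => (x : ℂ)) := by
      ext z
      constructor
      · intro hz
        exact ⟨z.re, Complex.ext (by simp) (by simp [show z.im = 0 from hz])⟩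
      · rintro ⟨x, rfl⟩
        simp
    rw [this]
    exact isPreconnected_range Complex.continuous_ofReal
  · exact slit_isPreconnected hHo hHc ht hγ hinj (by simp [HH, h0]) h1

end Vale.Agent.P153.R2.L1
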