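import Mathlib.Analysis.Complex.AbsMax
import Mathlib.Analysis.Complex.RemovableSingularity
import Mathlib.Analysis.Complex.BorelCaratheodory
import Mathlib.Analysis.Calculus.Deriv.Star

/-!
# P153, SLE side, block L1.C: typically real functions
-/

open Complex Metric Set Filter Topology
open scoped Real ComplexConjugate

namespace Vale.Agent.P153.R2.L1

theorem typReal {Ψ : ℂ → ℂ} {ρ R : ℝ} (hρ : 0 < ρ) (hR : ρ < R)
    (hd : DifferentiableOn ℂ Ψ (ball 0 R)) (h0 : Ψ 0 = 0)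
    (hs : ∀ w : ℂ, ‖w‖ = ρ → 0 ≤ (Ψ w).im * w.im) :
    ∀ w ∈ closedBall (0 : ℂ) ρ, 0 ≤ (((ρ : ℂ) ^ 2 - w ^ 2) * dslope Ψ 0 w).re := by
  set q : ℂ → ℂ := fun w => ((ρ : ℂ) ^ 2 - w ^ 2) * dslope Ψ 0 w with hq
  have hqd : DifferentiableOn ℂ q (ball 0 R) := by
    refine DifferentiableOn.mul (by fun_prop) ?_
    exact (Complex.differentiableOn_dslope (ball_mem_nhds _ (hρ.trans hR))).mpr hd
  have hE : DiffContOnCl ℂ (fun w => cexp (-q w)) (ball 0 ρ) := by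
    have h1 : DifferentiableOn ℂ (fun w => cexp (-q w)) (ball 0 R) := hqd.neg.cexp
    refine ⟨h1.mono (ball_subset_ball hR.le), ?_⟩
    refine h1.continuousOn.mono ?_
    rw [closure_ball (0 : ℂ) hρ.ne']
    exact closedBall_subset_ball hR
  intro w hw
  have hfr : ∀ z ∈ frontier (ball (0 : ℂ) ρ), ‖cexp (-q z)‖ ≤ 1 := by
    intro z hz
    rw [frontier_ball (0 : ℂ) hρ.ne', mem_sphere_zero_iff_norm] at hz
    have hz0 : z ≠ 0 := by
      intro h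
      rw [h, norm_zero] at hz
      linarith
    rw [norm_exp]
    apply Real.exp_le_one_iff.mpr
    have e1 : dslope Ψ 0 z = Ψ z / z := by
      rw [dslope_of_ne _ hz0, slope_def_field, h0, sub_zero, sub_zero]
    have e2 : (ρ : ℂ) ^ 2 = z * conj z := by
      rw [mul_conj, normSq_eq_norm_sq, hz]
      push_cast
      ring
    have e3 : q z = (conj z - z) * Ψ z := by
      simp only [hq]
      rw [e1, e2]
      field_simp
    have e4 : (q z).re = 2 * ((Ψ z).im * z.im) := by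
      rw [e3]
      simp only [mul_re, sub_re, conj_re, sub_im, conj_im]
      ring
    rw [neg_re, e4]
    have := hs z hz
    linarith
  have hcl : w ∈ closure (ball (0 : ℂ) ρ) := by rwa [closure_ball (0 : ℂ) hρ.ne']
  have := Complex.norm_le_of_forall_mem_frontier_norm_le isBounded_ball hE hfr hcl
  rw [norm_exp] at this
  have h2 := Real.exp_le_one_iff.mp this
  rw [neg_re] at h2
  linarith

theorem typReal_one {Ψ : ℂ → ℂ} (hd : DifferentiableOn ℂ Ψ (ball 0 1)) (h0 : Ψ 0 = 0)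
    (hs : ∀ w ∈ ball (0 : ℂ) 1, 0 ≤ (Ψ w).im * w.im) :
    ∀ w ∈ ball (0 : ℂ) 1, 0 ≤ ((1 - w ^ 2) * dslope Ψ 0 w).re := by
  intro w hw
  rw [mem_ball_zero_iff] at hw
  have hc : Tendsto (fun ρ : ℝ => (((ρ : ℂ) ^ 2 - w ^ 2) * dslope Ψ 0 w).re) (𝓝[<] 1)
      (𝓝 ((((1 : ℝ) : ℂ) ^ 2 - w ^ 2) * dslope Ψ 0 w).re) := by
    have : Continuous fun ρ : ℝ => (((ρ : ℂ) ^ 2 - w ^ 2) * dslope Ψ 0 w).re := by fun_prop
    exact (this.tendsto 1).mono_left nhdsWithin_le_nhds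
  have hge : ∀ᶠ ρ : ℝ in 𝓝[<] 1, 0 ≤ (((ρ : ℂ) ^ 2 - w ^ 2) * dslope Ψ 0 w).re := by
    have h1 : ∀ᶠ ρ : ℝ in 𝓝[<] 1, max ‖w‖ 0 < ρ :=
      (lt_mem_nhds (max_lt hw one_pos)).filter_mono nhdsWithin_le_nhds
    filter_upwards [h1, self_mem_nhdsWithin] with ρ hρ hρ1
    have hρ1' : ρ < 1 := hρ1
    have hρw : ‖w‖ < ρ := lt_of_le_of_lt (le_max_left _ _) hρ
    have hρ0 : 0 < ρ := lt_of_le_of_lt (le_max_right _ _) hρ
    refine typReal hρ0 hρ1' hd h0 ?_ w (by rw [mem_closedBall_zero_iff]; exact hρw.le)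
    intro z hz
    exact hs z (by rw [mem_ball_zero_iff, hz]; exact hρ1')
  have := ge_of_tendsto hc hge
  simpa using this

/-- Coefficient estimates for a typically real function. -/
theorem typReal_bounds {Ψ : ℂ → ℂ} (hd : DifferentiableOn ℂ Ψ (ball 0 1)) (h0 : Ψ 0 = 0)
    (hs : ∀ w ∈ ball (0 : ℂ) 1, 0 ≤ (Ψ w).im * w.im)
    (hsym : ∀ w ∈ ball (0 : ℂ) 1, Ψ (conj w) = conj (Ψ w)) :
    ∃ a : ℝ, 0 ≤ a ∧ deriv Ψ 0 = a ∧
      (∀ w ∈ ball (0 : ℂ) 1, ‖(1 - w ^ 2) * dslope Ψ 0 w - a‖ ≤ 2 * a * ‖w‖ / (1 - ‖w‖)) ∧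
      (∀ w : ℂ, ‖w‖ ≤ 1 / 2 → ‖Ψ w‖ ≤ 4 * a * ‖w‖) ∧
      (∀ w : ℂ, ‖w‖ ≤ 1 / 2 → ‖Ψ w - a * w‖ ≤ 6 * a * ‖w‖ ^ 2) := by
  have h1mem : (0 : ℂ) ∈ ball (0 : ℂ) 1 := mem_ball_self one_pos
  have hre := typReal_one hd h0 hs
  have hder : HasDerivAt Ψ (deriv Ψ 0) 0 :=
    ((hd 0 h1mem).differentiableAt (isOpen_ball.mem_nhds h1mem)).hasDerivAt
  have hreal : conj (deriv Ψ 0) = deriv Ψ 0 := by
    have h1 : HasDerivAt (conj ∘ Ψ ∘ conj) (conj (deriv Ψ 0)) 0 := by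
      have : HasDerivAt Ψ (deriv Ψ 0) (conj (0 : ℂ)) := by simpa using hder
      simpa using this.conj_conj
    have h2 : (conj ∘ Ψ ∘ conj) =ᶠ[𝓝 0] Ψ := by
      filter_upwards [isOpen_ball.mem_nhds h1mem] with w hw
      simp only [Function.comp_apply]
      rw [hsym w hw]
      simp
    exact (h1.congr_of_eventuallyEq h2.symm).unique hder
  obtain ⟨a, ha⟩ : ∃ a : ℝ, deriv Ψ 0 = a := ⟨(deriv Ψ 0).re, (Complex.conj_eq_iff_re.mp hreal).symm⟩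
  have hQ0 : dslope Ψ 0 0 = a := by rw [dslope_same, ha]
  have ha0 : 0 ≤ a := by
    have := hre 0 h1mem
    rw [hQ0] at this
    simpa using this
  set Q : ℂ → ℂ := fun w => (1 - w ^ 2) * dslope Ψ 0 w with hQ
  have hQd : DifferentiableOn ℂ Q (ball 0 1) := by
    refine DifferentiableOn.mul (by fun_prop) ?_
    exact (Complex.differentiableOn_dslope (ball_mem_nhds _ one_pos)).mpr hd
  have hQ0' : Q 0 = a := by simp [hQ, ha]
  have hb1 : ∀ w ∈ ball (0 : ℂ) 1, ‖Q w - a‖ ≤ 2 * a * ‖w‖ / (1 - ‖w‖) := by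
    intro w hw
    have hw' : ‖w‖ < 1 := by rwa [mem_ball_zero_iff] at hw
    have hε : ∀ ε : ℝ, 0 < ε → ‖Q w - a‖ ≤ 2 * (a + ε) * ‖w‖ / (1 - ‖w‖) := by
      intro ε hε
      have hfd : DifferentiableOn ℂ (fun w => (a : ℂ) - Q w) (ball 0 1) :=
        (differentiableOn_const _).sub hQd
      have hmap : MapsTo (fun w => (a : ℂ) - Q w) (ball 0 1) {z | z.re ≤ a + ε} := by
        intro z hz
        have := hre z hz
        change ((a : ℂ) - Q z).re ≤ a + ε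
        rw [sub_re, ofReal_re]
        have h3 : 0 ≤ (Q z).re := this
        linarith
      have := Complex.borelCaratheodory_zero (M := a + ε) (by linarith) hfd hmap one_pos hw
        (by simp [hQ0'])
      rwa [norm_sub_rev] at this
    have hlim : Tendsto (fun ε : ℝ => 2 * (a + ε) * ‖w‖ / (1 - ‖w‖)) (𝓝[>] 0)
        (𝓝 (2 * (a + 0) * ‖w‖ / (1 - ‖w‖))) := by
      have : Continuous fun ε : ℝ => 2 * (a + ε) * ‖w‖ / (1 - ‖w‖) := by fun_prop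
      exact (this.tendsto 0).mono_left nhdsWithin_le_nhds
    rw [add_zero] at hlim
    refine ge_of_tendsto hlim ?_
    filter_upwards [self_mem_nhdsWithin] with ε hε'
    exact hε ε hε'
  have hΨ : ∀ w ∈ ball (0 : ℂ) 1, Ψ w = w * Q w / (1 - w ^ 2) := by
    intro w hw
    have hw' : ‖w‖ < 1 := by rwa [mem_ball_zero_iff] at hw
    have hne : (1 : ℂ) - w ^ 2 ≠ 0 := by
      intro h
      have : ‖w ^ 2‖ = 1 := by rw [← sub_eq_zero.mp h, norm_one]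
      rw [norm_pow] at this
      nlinarith [norm_nonneg w]
    have hsl : Ψ w = w * dslope Ψ 0 w := by
      have := sub_smul_dslope Ψ 0 w
      rw [h0, sub_zero, sub_zero, smul_eq_mul] at this
      exact this.symm
    rw [hsl]
    simp only [hQ]
    field_simp
  have hden : ∀ w : ℂ, ‖w‖ ≤ 1 / 2 → 3 / 4 ≤ ‖(1 : ℂ) - w ^ 2‖ := by
    intro w hw
    have h1 : ‖(1 : ℂ)‖ - ‖w ^ 2‖ ≤ ‖(1 : ℂ) - w ^ 2‖ := norm_sub_norm_le _ _
    rw [norm_one, norm_pow] at h1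
    nlinarith [norm_nonneg w]
  have hb1' : ∀ w : ℂ, ‖w‖ ≤ 1 / 2 → ‖Q w - a‖ ≤ 4 * a * ‖w‖ := by
    intro w hw
    have hw1 : w ∈ ball (0 : ℂ) 1 := by rw [mem_ball_zero_iff]; linarith
    refine (hb1 w hw1).trans ?_
    rw [div_le_iff₀ (by linarith)]
    have : 0 ≤ a * ‖w‖ := mul_nonneg ha0 (norm_nonneg _)
    nlinarith
  refine ⟨a, ha0, ha, hb1, ?_, ?_⟩
  · intro w hw
    have hw1 : w ∈ ball (0 : ℂ) 1 := by rw [mem_ball_zero_iff]; linarith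
    have h1 := hb1' w hw
    have h2 := hden w hw
    rw [hΨ w hw1, norm_div, norm_mul, div_le_iff₀ (by linarith)]
    have h3 : ‖Q w‖ ≤ 3 * a := by
      calc ‖Q w‖ = ‖(Q w - a) + a‖ := by ring_nf
        _ ≤ ‖Q w - a‖ + ‖(a : ℂ)‖ := norm_add_le _ _
        _ ≤ 4 * a * ‖w‖ + a := by
          rw [norm_real, Real.norm_eq_abs, abs_of_nonneg ha0]
          linarith
        _ ≤ 3 * a := by nlinarith
    have h5 : 0 ≤ a * ‖w‖ := mul_nonneg ha0 (norm_nonneg _)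
    calc ‖w‖ * ‖Q w‖ ≤ ‖w‖ * (3 * a) := by gcongr
      _ ≤ 4 * a * ‖w‖ * (3 / 4) := by linarith
      _ ≤ 4 * a * ‖w‖ * ‖(1 : ℂ) - w ^ 2‖ := by gcongr
  · intro w hw
    have hw1 : w ∈ ball (0 : ℂ) 1 := by rw [mem_ball_zero_iff]; linarith
    have h1 := hb1' w hw
    have h2 := hden w hw
    have hne : (1 : ℂ) - w ^ 2 ≠ 0 := by
      intro h
      rw [h, norm_zero] at h2
      linarith
    have e : Ψ w - a * w = w * ((Q w - a) + a * w ^ 2) / (1 - w ^ 2) := by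
      rw [hΨ w hw1]
      field_simp
      ring
    rw [e, norm_div, norm_mul, div_le_iff₀ (by linarith)]
    have h3 : ‖(Q w - a) + a * w ^ 2‖ ≤ 4 * a * ‖w‖ + a * ‖w‖ ^ 2 := by
      refine (norm_add_le _ _).trans ?_
      rw [norm_mul, norm_pow, norm_real, Real.norm_eq_abs, abs_of_nonneg ha0]
      linarith
    have h5 : 0 ≤ a * ‖w‖ ^ 2 := mul_nonneg ha0 (by positivity)
    have h6 : 0 ≤ ‖w‖ := norm_nonneg _
    calc ‖w‖ * ‖(Q w - a) + a * w ^ 2‖ ≤ ‖w‖ * (4 * a * ‖w‖ + a * ‖w‖ ^ 2) := by gcongr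
      _ = a * ‖w‖ ^ 2 * (4 + ‖w‖) := by ring
      _ ≤ a * ‖w‖ ^ 2 * (9 / 2) := by gcongr; linarith
      _ = 6 * a * ‖w‖ ^ 2 * (3 / 4) := by ring
      _ ≤ 6 * a * ‖w‖ ^ 2 * ‖(1 : ℂ) - w ^ 2‖ := by gcongr

end Vale.Agent.P153.R2.L1
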