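import Vale.Agent.P153.R2.L1.Stmt
import Vale.Agent.P153.R2.L1.TypReal
import Mathlib.Topology.Bornology.BoundedOperation

/-!
# P153, SLE side, block L1.C: estimates for hydrodynamically normalised maps
-/

open Complex Metric Set Filter Topology
open scoped Real ComplexConjugate

namespace Vale.Agent.P153.R2.L1

namespace IsHydro

variable {K : Set ℂ} {g : ℂ → ℂ}

theorem exists_psi (h : IsHydro K g) {x₀ r : ℝ} (hr : 0 < r)
    (hK : K ⊆ closedBall (x₀ : ℂ) r) :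
    ∃ Ψ : ℂ → ℂ, DifferentiableOn ℂ Ψ (ball 0 1) ∧ Ψ 0 = 0 ∧
      (∀ w ∈ ball (0 : ℂ) 1, 0 ≤ (Ψ w).im * w.im) ∧
      (∀ w ∈ ball (0 : ℂ) 1, Ψ (conj w) = conj (Ψ w)) ∧
      (∀ z ∈ HH, r < ‖z - x₀‖ → g z - z = Ψ (r / (z - x₀))) ∧
      (∀ w ∈ ball (0 : ℂ) 1, (Ψ w).im * w.im ≤ r * w.im ^ 2 / ‖w‖ ^ 2) := by
  set Ω : Set ℂ := {z | r < ‖z - x₀‖} with hΩ
  have hΩo : IsOpen Ω := isOpen_lt continuous_const (by fun_prop)
  have hΩK : ∀ z ∈ Ω, z ∉ K := by
    intro z hz hc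
    have := hK hc
    rw [mem_closedBall, dist_eq_norm] at this
    have hz' : r < ‖z - x₀‖ := hz
    linarith
  have hmem : ∀ z ∈ Ω, 0 < z.im → z ∈ HH \ K := fun z hz h0 => ⟨h0, hΩK z hz⟩
  have hsymΩ : ∀ z ∈ Ω, conj z ∈ Ω := by
    intro z hz
    change r < ‖conj z - x₀‖
    have : (conj z : ℂ) - x₀ = conj (z - x₀) := by simp
    rw [this, RCLike.norm_conj]
    exact hz
  obtain ⟨G, hGd, hGF, hGs⟩ := reflect (F := fun z => g z - z) (Ω := Ω) (C := 1) one_pos hΩo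
    hsymΩ (by
      intro z hz
      have hz' := hmem z hz.1 hz.2
      exact ((h.hasDerivAt hz').differentiableAt.sub differentiableAt_id).differentiableWithinAt)
    (by
      intro z hz h0
      have h1 := h.im_le (hmem z hz h0)
      have h2 : 0 < (g z).im := h.mapsTo (hmem z hz h0)
      simp only [sub_im, one_mul]
      rw [abs_le]
      constructor <;> linarith)
  -- decay of G at infinity
  have hdecay : ∀ ε : ℝ, 0 < ε → ∃ R : ℝ, 0 < R ∧ ∀ z ∈ Ω, R ≤ ‖z‖ → ‖G z‖ ≤ ε := by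
    intro ε hε
    obtain ⟨R, hR, hKR, hfar⟩ := h.far hε
    refine ⟨R, hR, ?_⟩
    have hup : ∀ z ∈ Ω, 0 < z.im → R ≤ ‖z‖ → ‖G z‖ ≤ ε := by
      intro z hz h0 hn
      rw [hGF z hz h0]
      exact (hfar z h0 hn).le
    intro z hz hn
    rcases lt_trichotomy z.im 0 with h0 | h0 | h0
    · have h1 := hup (conj z) (hsymΩ z hz) (by simpa using h0) (by rw [RCLike.norm_conj]; exact hn)
      rw [hGs z hz, RCLike.norm_conj] at h1
      exact h1
    · have hcG : ContinuousAt G z := (hGd z hz).differentiableAt (hΩo.mem_nhds hz) |>.continuousAt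
      have hpath : Tendsto (fun η : ℝ => z + (η : ℂ) * I) (𝓝[>] 0) (𝓝 z) := by
        have : Continuous fun η : ℝ => z + (η : ℂ) * I := by fun_prop
        have h2 := (this.tendsto 0).mono_left (nhdsWithin_le_nhds (s := Ioi 0))
        simpa using h2
      have hl := (hcG.tendsto.comp hpath).norm
      refine le_of_tendsto hl ?_
      have hΩev : ∀ᶠ η : ℝ in 𝓝[>] 0, z + (η : ℂ) * I ∈ Ω := hpath (hΩo.mem_nhds hz)
      filter_upwards [hΩev, self_mem_nhdsWithin] with η h1 h2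
      have hη : 0 < η := h2
      refine hup _ h1 (by simp [h0, hη]) ?_
      refine hn.trans ?_
      have hzre : z = (z.re : ℂ) := Complex.ext (by simp) (by simp [h0])
      have e1 : ‖z‖ = |(z + (η : ℂ) * I).re| := by
        conv_lhs => rw [hzre, norm_real]
        simp
      rw [e1]
      exact Complex.abs_re_le_norm _
    · exact hup z hz h0 hn
  set Ψ : ℂ → ℂ := fun w => if w = 0 then 0 else G (x₀ + r / w) with hΨ
  have hΨ0 : Ψ 0 = 0 := by simp [hΨ]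
  have hΨne : ∀ w, w ≠ 0 → Ψ w = G (x₀ + r / w) := fun w hw => by simp [hΨ, hw]
  have hpt : ∀ w ∈ ball (0 : ℂ) 1, w ≠ 0 → (x₀ : ℂ) + r / w ∈ Ω := by
    intro w hw hw0
    rw [mem_ball_zero_iff] at hw
    change r < ‖(x₀ : ℂ) + r / w - x₀‖
    rw [add_sub_cancel_left, norm_div, norm_real, Real.norm_eq_abs, abs_of_pos hr,
      lt_div_iff₀ (norm_pos_iff.mpr hw0)]
    nlinarith
  have him : ∀ w : ℂ, ((x₀ : ℂ) + r / w).im = -(r * w.im / ‖w‖ ^ 2) := by
    intro w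
    rw [add_im, ofReal_im, zero_add, div_eq_mul_inv, im_ofReal_mul, inv_im, normSq_eq_norm_sq]
    ring
  have hcont0 : ContinuousAt Ψ 0 := by
    rw [ContinuousAt, hΨ0, Metric.tendsto_nhds_nhds]
    intro ε hε
    obtain ⟨R, hR, hb⟩ := hdecay (ε / 2) (by positivity)
    have hR' : 0 < R + |x₀| := by positivity
    refine ⟨min 1 (r / (R + |x₀|)), lt_min one_pos (by positivity), ?_⟩
    intro w hw
    rw [dist_zero_right] at hw ⊢
    by_cases hw0 : w = 0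
    · rw [hw0, hΨ0, norm_zero]; exact hε
    · rw [hΨne w hw0]
      have hw1 : w ∈ ball (0 : ℂ) 1 := by
        rw [mem_ball_zero_iff]; exact lt_of_lt_of_le hw (min_le_left _ _)
      have hn : R ≤ ‖(x₀ : ℂ) + r / w‖ := by
        have h1 : ‖w‖ < r / (R + |x₀|) := lt_of_lt_of_le hw (min_le_right _ _)
        have h2 : R + |x₀| ≤ r / ‖w‖ := by
          rw [lt_div_iff₀ hR'] at h1
          rw [le_div_iff₀ (norm_pos_iff.mpr hw0)]
          linarith
        have h3 : ‖(r : ℂ) / w‖ - ‖(x₀ : ℂ)‖ ≤ ‖(x₀ : ℂ) + r / w‖ := by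
          have := norm_sub_norm_le ((r : ℂ) / w) (-(x₀ : ℂ))
          rw [norm_neg, sub_neg_eq_add, add_comm ((r : ℂ) / w)] at this
          exact this
        rw [norm_div, norm_real, norm_real, Real.norm_eq_abs, Real.norm_eq_abs,
          abs_of_pos hr] at h3
        linarith
      have := hb _ (hpt w hw1 hw0) hn
      linarith
  have hdiff : ∀ w ∈ ball (0 : ℂ) 1, w ≠ 0 → DifferentiableAt ℂ Ψ w := by
    intro w hw hw0
    have h1 : DifferentiableAt ℂ G ((x₀ : ℂ) + r / w) :=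
      (hGd _ (hpt w hw hw0)).differentiableAt (hΩo.mem_nhds (hpt w hw hw0))
    have h2 : DifferentiableAt ℂ (fun w : ℂ => (x₀ : ℂ) + r / w) w := by
      apply DifferentiableAt.const_add
      exact (differentiableAt_const _).div differentiableAt_id hw0
    have h3 : DifferentiableAt ℂ (fun w => G ((x₀ : ℂ) + r / w)) w := h1.comp w h2
    refine h3.congr_of_eventuallyEq ?_
    filter_upwards [isOpen_compl_singleton.mem_nhds hw0] with u hu
    exact hΨne u hu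
  refine ⟨Ψ, ?_, hΨ0, ?_, ?_, ?_, ?_⟩
  · intro w hw
    by_cases hw0 : w = 0
    · rw [hw0]
      have : AnalyticAt ℂ Ψ 0 := by
        apply Complex.analyticAt_of_differentiable_on_punctured_nhds_of_continuousAt _ hcont0
        have h1 : ∀ᶠ z in 𝓝[≠] (0 : ℂ), z ∈ ball (0 : ℂ) 1 :=
          mem_nhdsWithin_of_mem_nhds (ball_mem_nhds _ one_pos)
        filter_upwards [h1, self_mem_nhdsWithin] with z hz hz0
        exact hdiff z hz hz0
      exact this.differentiableAt.differentiableWithinAt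
    · exact (hdiff w hw hw0).differentiableWithinAt
  · -- positivity
    have hneg : ∀ w ∈ ball (0 : ℂ) 1, w.im < 0 → (Ψ w).im ≤ 0 := by
      intro w hw h0
      have hw0 : w ≠ 0 := by rintro rfl; simp at h0
      have hz := hpt w hw hw0
      have hzi : 0 < ((x₀ : ℂ) + r / w).im := by
        rw [him]
        have : 0 < ‖w‖ ^ 2 := by positivity
        have h3 : r * w.im / ‖w‖ ^ 2 < 0 := div_neg_of_neg_of_pos (mul_neg_of_pos_of_neg hr h0) this
        linarith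
      rw [hΨne w hw0, hGF _ hz hzi]
      have := h.im_le (hmem _ hz hzi)
      rw [sub_im]
      linarith
    intro w hw
    rcases lt_trichotomy w.im 0 with h0 | h0 | h0
    · exact mul_nonneg_of_nonpos_of_nonpos (hneg w hw h0) h0.le
    · rw [h0, mul_zero]
    · have hw' : conj w ∈ ball (0 : ℂ) 1 := by
        rw [mem_ball_zero_iff, RCLike.norm_conj]
        rwa [mem_ball_zero_iff] at hw
      have hw0 : w ≠ 0 := by rintro rfl; simp at h0
      have h1 := hneg (conj w) hw' (by simpa using h0)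
      have hw0' : conj w ≠ 0 := by simpa using hw0
      rw [hΨne _ hw0'] at h1
      have e : (x₀ : ℂ) + r / conj w = conj ((x₀ : ℂ) + r / w) := by simp
      rw [e, hGs _ (hpt w hw hw0), conj_im] at h1
      rw [hΨne w hw0]
      exact mul_nonneg (by linarith) h0.le
  · intro w hw
    by_cases hw0 : w = 0
    · simp [hw0, hΨ0]
    · have hw0' : conj w ≠ 0 := by simpa using hw0
      rw [hΨne w hw0, hΨne _ hw0']
      have e : (x₀ : ℂ) + r / conj w = conj ((x₀ : ℂ) + r / w) := by simp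
      rw [e, hGs _ (hpt w hw hw0)]
  · intro z hz hn
    have hzx : z - x₀ ≠ 0 := by
      intro hc
      rw [hc, norm_zero] at hn
      linarith
    have hr' : (r : ℂ) ≠ 0 := by exact_mod_cast hr.ne'
    have hw0 : (r : ℂ) / (z - x₀) ≠ 0 := div_ne_zero hr' hzx
    rw [hΨne _ hw0]
    have e : (x₀ : ℂ) + r / (r / (z - x₀)) = z := by
      field_simp
      ring
    rw [e, hGF z hn hz]
  · have hneg : ∀ w ∈ ball (0 : ℂ) 1, w.im < 0 → -(r * (-w.im) / ‖w‖ ^ 2) ≤ (Ψ w).im := by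
      intro w hw h0
      have hw0 : w ≠ 0 := by rintro rfl; simp at h0
      have hz := hpt w hw hw0
      have hzi : 0 < ((x₀ : ℂ) + r / w).im := by
        rw [him]
        have : 0 < ‖w‖ ^ 2 := by positivity
        have h3 : r * w.im / ‖w‖ ^ 2 < 0 := div_neg_of_neg_of_pos (mul_neg_of_pos_of_neg hr h0) this
        linarith
      rw [hΨne w hw0, hGF _ hz hzi, sub_im, him]
      have h1 : 0 < (g ((x₀ : ℂ) + r / w)).im := h.mapsTo (hmem _ hz hzi)
      have h2 : r * (-w.im) / ‖w‖ ^ 2 = -(r * w.im / ‖w‖ ^ 2) := by ring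
      linarith
    have key : ∀ w ∈ ball (0 : ℂ) 1, w.im < 0 → (Ψ w).im * w.im ≤ r * w.im ^ 2 / ‖w‖ ^ 2 := by
      intro w hw h0
      have h1 := mul_le_mul_of_nonpos_right (hneg w hw h0) h0.le
      refine h1.trans (le_of_eq ?_)
      ring
    intro w hw
    rcases lt_trichotomy w.im 0 with h0 | h0 | h0
    · exact key w hw h0
    · rw [h0]; simp
    · have hw' : conj w ∈ ball (0 : ℂ) 1 := by
        rw [mem_ball_zero_iff, RCLike.norm_conj]
        rwa [mem_ball_zero_iff] at hw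
      have hw0 : w ≠ 0 := by rintro rfl; simp at h0
      have h1 := key (conj w) hw' (by simpa using h0)
      have hw0' : conj w ≠ 0 := by simpa using hw0
      rw [hΨne _ hw0'] at h1
      have e : (x₀ : ℂ) + r / conj w = conj ((x₀ : ℂ) + r / w) := by simp
      rw [e, hGs _ (hpt w hw hw0), conj_im, conj_im, RCLike.norm_conj] at h1
      rw [hΨne w hw0]
      calc (G (x₀ + r / w)).im * w.im = -(G (x₀ + r / w)).im * -w.im := by ring
        _ ≤ r * (-w.im) ^ 2 / ‖w‖ ^ 2 := h1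
        _ = _ := by ring

end IsHydro

theorem coef_le {Ψ : ℂ → ℂ} {r a : ℝ} (hd : DifferentiableOn ℂ Ψ (ball 0 1)) (h0 : Ψ 0 = 0)
    (ha : deriv Ψ 0 = a)
    (hup : ∀ w ∈ ball (0 : ℂ) 1, (Ψ w).im * w.im ≤ r * w.im ^ 2 / ‖w‖ ^ 2) : a ≤ r := by
  have h1mem : (0 : ℂ) ∈ ball (0 : ℂ) 1 := mem_ball_self one_pos
  have hder : HasDerivAt Ψ a 0 := by
    rw [← ha]
    exact ((hd 0 h1mem).differentiableAt (isOpen_ball.mem_nhds h1mem)).hasDerivAt
  have key : ∀ ρ : ℝ, 0 < ρ → ρ < 1 → ρ ^ 2 * a ≤ r := by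
    intro ρ hρ hρ1
    have hρ2 : (ρ : ℂ) ≠ 0 := by exact_mod_cast hρ.ne'
    have hd' : DifferentiableOn ℂ (fun w => (r / ρ ^ 2 : ℝ) * w - Ψ w) (ball 0 1) :=
      DifferentiableOn.sub (by fun_prop) hd
    have := typReal (Ψ := fun w => (r / ρ ^ 2 : ℝ) * w - Ψ w) hρ hρ1 hd' (by simp [h0]) (by
      intro w hw
      have hw1 : w ∈ ball (0 : ℂ) 1 := by rw [mem_ball_zero_iff, hw]; exact hρ1
      have h1 := hup w hw1
      rw [hw] at h1
      rw [sub_im, im_ofReal_mul, sub_mul]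
      have e : r / ρ ^ 2 * w.im * w.im = r * w.im ^ 2 / ρ ^ 2 := by ring
      rw [e]
      linarith) 0 (mem_closedBall_self hρ.le)
    have hder2 : HasDerivAt (fun w : ℂ => (r / ρ ^ 2 : ℝ) * w - Ψ w) ((r / ρ ^ 2 : ℝ) - (a : ℂ)) 0 := by
      have := (hasDerivAt_id (0 : ℂ)).const_mul ((r / ρ ^ 2 : ℝ) : ℂ)
      simp only [id, mul_one] at this
      exact this.sub hder
    rw [dslope_same, hder2.deriv] at this
    have e : (((ρ : ℂ) ^ 2 - 0 ^ 2) * (((r / ρ ^ 2 : ℝ) : ℂ) - (a : ℂ))).re = r - ρ ^ 2 * a := by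
      have : (((ρ : ℂ) ^ 2 - 0 ^ 2) * (((r / ρ ^ 2 : ℝ) : ℂ) - (a : ℂ))) =
          ((r - ρ ^ 2 * a : ℝ) : ℂ) := by
        push_cast
        field_simp
        ring
      rw [this, ofReal_re]
    rw [e] at this
    linarith
  have hlim : Tendsto (fun ρ : ℝ => ρ ^ 2 * a) (𝓝[<] 1) (𝓝 (1 ^ 2 * a)) := by
    have : Continuous fun ρ : ℝ => ρ ^ 2 * a := by fun_prop
    exact (this.tendsto 1).mono_left nhdsWithin_le_nhds
  rw [one_pow, one_mul] at hlim
  refine le_of_tendsto hlim ?_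
  have h1 : ∀ᶠ ρ : ℝ in 𝓝[<] 1, 0 < ρ := (lt_mem_nhds one_pos).filter_mono nhdsWithin_le_nhds
  filter_upwards [h1, self_mem_nhdsWithin] with ρ h2 h3
  exact key ρ h2 h3

theorem cob_neBot : (Bornology.cobounded ℂ ⊓ 𝓟 HH).NeBot := by
  rw [inf_principal_neBot_iff]
  intro U hU
  obtain ⟨R, hR⟩ := (Metric.isBounded_iff_subset_ball (0 : ℂ)).mp
    (Bornology.isBounded_def.mpr (show Uᶜᶜ ∈ Bornology.cobounded ℂ by rwa [compl_compl]))
  refine ⟨((max R 1 : ℝ) : ℂ) * I, ?_, ?_⟩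
  · by_contra hc
    have := hR hc
    rw [mem_ball_zero_iff, norm_mul, norm_I, mul_one, norm_real, Real.norm_eq_abs] at this
    have h2 : R ≤ max R 1 := le_max_left _ _
    linarith [le_abs_self (max R 1)]
  · change 0 < (((max R 1 : ℝ) : ℂ) * I).im
    simp

theorem tendsto_im_axis : Tendsto (fun y : ℝ => (y : ℂ) * I) atTop
    (Bornology.cobounded ℂ ⊓ 𝓟 HH) := by
  rw [tendsto_inf]
  constructor
  · rw [← tendsto_norm_atTop_iff_cobounded]
    have : (fun y : ℝ => ‖(y : ℂ) * I‖) = fun y => |y| := by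
      ext y
      simp
    rw [this]
    exact tendsto_abs_atTop_atTop
  · rw [tendsto_principal]
    filter_upwards [eventually_gt_atTop 0] with y hy
    change 0 < ((y : ℂ) * I).im
    simpa using hy

theorem hcap_eq_of_tendsto {g : ℂ → ℂ} {a : ℝ}
    (ha : Tendsto (fun z => z * (g z - z)) (Bornology.cobounded ℂ ⊓ 𝓟 HH) (𝓝 (a : ℂ))) :
    hcap g = a := by
  have h1 := (Complex.continuous_re.tendsto _).comp (ha.comp tendsto_im_axis)
  rw [ofReal_re] at h1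
  refine (h1.congr fun y => ?_).limUnder_eq
  simp
  ring

namespace IsHydro

variable {K : Set ℂ} {g : ℂ → ℂ}

theorem exists_est (h : IsHydro K g) {x₀ r : ℝ} (hr : 0 < r)
    (hK : K ⊆ closedBall (x₀ : ℂ) r) :
    ∃ a : ℝ, 0 ≤ a ∧ a ≤ r ^ 2 ∧
      (∀ z ∈ HH, 2 * r ≤ ‖z - x₀‖ → ‖g z - z‖ ≤ 4 * a / ‖z - x₀‖) ∧
      (∀ z ∈ HH, 2 * r ≤ ‖z - x₀‖ → ‖g z - z - a / (z - x₀)‖ ≤ 6 * a * r / ‖z - x₀‖ ^ 2) := by
  obtain ⟨Ψ, hd, h0, hs, hsym, hg, hup⟩ := h.exists_psi hr hK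
  obtain ⟨b, hb0, hb, -, h1, h2⟩ := typReal_bounds hd h0 hs hsym
  have hbr := coef_le hd h0 hb hup
  have hw : ∀ z : ℂ, 2 * r ≤ ‖z - x₀‖ → ‖(r : ℂ) / (z - x₀)‖ = r / ‖z - x₀‖ ∧
      r / ‖z - x₀‖ ≤ 1 / 2 ∧ 0 < ‖z - x₀‖ := by
    intro z hn
    have hn0 : 0 < ‖z - x₀‖ := by linarith
    refine ⟨?_, ?_, hn0⟩
    · rw [norm_div, norm_real, Real.norm_eq_abs, abs_of_pos hr]
    · rw [div_le_div_iff₀ hn0 two_pos]
      linarith
  refine ⟨b * r, by positivity, by nlinarith, ?_, ?_⟩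
  · intro z hz hn
    obtain ⟨e1, e2, e3⟩ := hw z hn
    rw [hg z hz (by linarith)]
    refine (h1 _ (by rw [e1]; exact e2)).trans (le_of_eq ?_)
    rw [e1]
    ring
  · intro z hz hn
    obtain ⟨e1, e2, e3⟩ := hw z hn
    rw [hg z hz (by linarith)]
    have e4 : ((b * r : ℝ) : ℂ) / (z - x₀) = b * (r / (z - x₀)) := by
      push_cast
      ring
    rw [e4]
    refine (h2 _ (by rw [e1]; exact e2)).trans (le_of_eq ?_)
    rw [e1]
    ring

theorem tendsto_of_est {a x₀ r : ℝ} (hr : 0 < r)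
    (hest : ∀ z ∈ HH, 2 * r ≤ ‖z - x₀‖ → ‖g z - z - a / (z - x₀)‖ ≤ 6 * a * r / ‖z - x₀‖ ^ 2) :
    Tendsto (fun z => z * (g z - z)) (Bornology.cobounded ℂ ⊓ 𝓟 HH) (𝓝 (a : ℂ)) := by
  have hnorm : Tendsto (fun z : ℂ => ‖z - x₀‖) (Bornology.cobounded ℂ) atTop := by
    have h1 : Tendsto (fun z : ℂ => z - x₀) (Bornology.cobounded ℂ) (Bornology.cobounded ℂ) :=
      tendsto_sub_const_cobounded (x₀ : ℂ)
    exact tendsto_norm_cobounded_atTop.comp h1
  have hnorm' := hnorm.mono_left (inf_le_left (b := 𝓟 HH))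
  rw [tendsto_iff_norm_sub_tendsto_zero]
  have hbig : ∀ᶠ z : ℂ in Bornology.cobounded ℂ ⊓ 𝓟 HH, 2 * r + |x₀| + 1 ≤ ‖z - x₀‖ ∧ z ∈ HH := by
    refine (hnorm'.eventually_ge_atTop _).and ?_
    exact mem_inf_of_right (mem_principal_self _)
  have hlim : Tendsto (fun z : ℂ => (2 * (6 * |a| * r) + |a| * |x₀|) / ‖z - x₀‖)
      (Bornology.cobounded ℂ ⊓ 𝓟 HH) (𝓝 0) := hnorm'.const_div_atTop _
  refine squeeze_zero' (Eventually.of_forall fun _ => norm_nonneg _) ?_ hlim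
  filter_upwards [hbig] with z hz
  obtain ⟨h1, h2⟩ := hz
  have hn0 : 0 < ‖z - x₀‖ := by
    have := abs_nonneg x₀
    linarith
  have hne : z - x₀ ≠ 0 := norm_pos_iff.mp hn0
  have e : z * (g z - z) - a = z * (g z - z - a / (z - x₀)) + a * x₀ / (z - x₀) := by
    field_simp
    ring
  have hz2 : ‖z‖ ≤ 2 * ‖z - x₀‖ := by
    calc ‖z‖ = ‖(z - x₀) + x₀‖ := by ring_nf
      _ ≤ ‖z - x₀‖ + ‖(x₀ : ℂ)‖ := norm_add_le _ _
      _ ≤ 2 * ‖z - x₀‖ := by
        rw [norm_real, Real.norm_eq_abs]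
        have := abs_nonneg x₀
        linarith
  have h3 := hest z h2 (by have := abs_nonneg x₀; linarith)
  have h4 : 6 * a * r / ‖z - x₀‖ ^ 2 ≤ 6 * |a| * r / ‖z - x₀‖ ^ 2 := by
    gcongr
    exact le_abs_self a
  rw [e]
  refine (norm_add_le _ _).trans ?_
  rw [norm_mul, norm_div, norm_mul, norm_real, norm_real, Real.norm_eq_abs, Real.norm_eq_abs,
    add_div]
  gcongr
  calc ‖z‖ * ‖g z - z - a / (z - x₀)‖ ≤ (2 * ‖z - x₀‖) * (6 * |a| * r / ‖z - x₀‖ ^ 2) := by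
        gcongr
        exact h3.trans h4
    _ = 2 * (6 * |a| * r) / ‖z - x₀‖ := by
        field_simp

theorem exists_tendsto (h : IsHydro K g) : ∃ a : ℝ, 0 ≤ a ∧
    Tendsto (fun z => z * (g z - z)) (Bornology.cobounded ℂ ⊓ 𝓟 HH) (𝓝 (a : ℂ)) := by
  obtain ⟨R, hR⟩ := (Metric.isBounded_iff_subset_closedBall (0 : ℂ)).mp h.bdd
  have hK : K ⊆ closedBall ((0 : ℝ) : ℂ) (max R 1) := by
    rw [ofReal_zero]
    exact hR.trans (closedBall_subset_closedBall (le_max_left _ _))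
  have hr : 0 < max R 1 := lt_of_lt_of_le one_pos (le_max_right _ _)
  obtain ⟨a, ha0, -, -, hest⟩ := h.exists_est hr hK
  exact ⟨a, ha0, tendsto_of_est hr hest⟩

theorem tendsto_hcap (h : IsHydro K g) :
    Tendsto (fun z => z * (g z - z)) (Bornology.cobounded ℂ ⊓ 𝓟 HH) (𝓝 (hcap g : ℂ)) := by
  obtain ⟨a, ha0, ha⟩ := h.exists_tendsto
  rw [hcap_eq_of_tendsto ha]
  exact ha

theorem hcap_nonneg (h : IsHydro K g) : 0 ≤ hcap g := by
  obtain ⟨a, ha0, ha⟩ := h.exists_tendsto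
  rwa [hcap_eq_of_tendsto ha]


theorem est_all (h : IsHydro K g) {x₀ r : ℝ} (hr : 0 < r)
    (hK : K ⊆ closedBall (x₀ : ℂ) r) :
    hcap g ≤ r ^ 2 ∧
      (∀ z ∈ HH, 2 * r ≤ ‖z - x₀‖ → ‖g z - z‖ ≤ 4 * hcap g / ‖z - x₀‖) ∧
      (∀ z ∈ HH, 2 * r ≤ ‖z - x₀‖ →
        ‖g z - z - hcap g / (z - x₀)‖ ≤ 6 * hcap g * r / ‖z - x₀‖ ^ 2) := by
  obtain ⟨a, ha0, har, h1, h2⟩ := h.exists_est hr hK
  have e := hcap_eq_of_tendsto (tendsto_of_est hr h2)
  rw [e]
  exact ⟨har, h1, h2⟩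

/-- `hcap ≤ r²`. -/
theorem hcap_le (h : IsHydro K g) {x₀ r : ℝ} (hr : 0 < r) (hK : K ⊆ closedBall (x₀ : ℂ) r) :
    hcap g ≤ r ^ 2 := (h.est_all hr hK).1

theorem est1 (h : IsHydro K g) {x₀ r : ℝ} (hr : 0 < r) (hK : K ⊆ closedBall (x₀ : ℂ) r)
    {z : ℂ} (hz : z ∈ HH) (hn : 2 * r ≤ ‖z - x₀‖) :
    ‖g z - z‖ ≤ 4 * hcap g / ‖z - x₀‖ := (h.est_all hr hK).2.1 z hz hn

theorem est2 (h : IsHydro K g) {x₀ r : ℝ} (hr : 0 < r) (hK : K ⊆ closedBall (x₀ : ℂ) r)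
    {z : ℂ} (hz : z ∈ HH) (hn : 2 * r ≤ ‖z - x₀‖) :
    ‖g z - z - hcap g / (z - x₀)‖ ≤ 6 * hcap g * r / ‖z - x₀‖ ^ 2 :=
  (h.est_all hr hK).2.2 z hz hn

theorem four_r (h : IsHydro K g) {x₀ r : ℝ} (hr : 0 < r) (hK : K ⊆ closedBall (x₀ : ℂ) r) :
    ∀ z ∈ HH, ‖z - x₀‖ = 2 * r → ‖g z - x₀‖ ≤ 4 * r := by
  intro z hz hn
  have h1 := h.est1 hr hK hz hn.ge
  have h2 := h.hcap_le hr hK
  have h3 : 4 * hcap g / ‖z - x₀‖ ≤ 2 * r := by
    rw [hn, div_le_iff₀ (by linarith)]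
    nlinarith
  calc ‖g z - x₀‖ = ‖(g z - z) + (z - x₀)‖ := by ring_nf
    _ ≤ ‖g z - z‖ + ‖z - x₀‖ := norm_add_le _ _
    _ ≤ 4 * r := by rw [hn] at *; linarith

/-- `g` maps the part of its domain inside the half-disc of radius `2r` into the half-disc of
radius `4r`. -/
theorem inner4 (h : IsHydro K g) {x₀ r : ℝ} (hr : 0 < r) (hK : K ⊆ closedBall (x₀ : ℂ) r)
    {z : ℂ} (hz : z ∈ HH \ K) (hn : ‖z - x₀‖ ≤ 2 * r) : ‖g z - x₀‖ ≤ 4 * r :=
  h.inner (by linarith) (hK.trans (closedBall_subset_ball (by linarith))) (h.four_r hr hK) z hz hn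

/-- Points of `ℍ` outside the half-disc of radius `4r` come from outside the half-disc of radius
`2r`. -/
theorem outer4 (h : IsHydro K g) {x₀ r : ℝ} (hr : 0 < r) (hK : K ⊆ closedBall (x₀ : ℂ) r)
    {w : ℂ} (hw : w ∈ HH) (hn : 4 * r < ‖w - x₀‖) : 2 * r < ‖inv K g w - x₀‖ :=
  h.outer (by linarith) (hK.trans (closedBall_subset_ball (by linarith))) (h.four_r hr hK) w hw hn

/-- `|g z - z| ≤ 6 r` everywhere. -/
theorem norm_sub_le (h : IsHydro K g) {x₀ r : ℝ} (hr : 0 < r) (hK : K ⊆ closedBall (x₀ : ℂ) r)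
    {z : ℂ} (hz : z ∈ HH \ K) : ‖g z - z‖ ≤ 6 * r := by
  rcases le_total ‖z - x₀‖ (2 * r) with hn | hn
  · have h1 := h.inner4 hr hK hz hn
    calc ‖g z - z‖ = ‖(g z - x₀) - (z - x₀)‖ := by ring_nf
      _ ≤ ‖g z - x₀‖ + ‖z - x₀‖ := _root_.norm_sub_le _ _
      _ ≤ 6 * r := by linarith
  · have h1 := h.est1 hr hK hz.1 hn
    have h2 := h.hcap_le hr hK
    have hn0 : 0 < ‖z - x₀‖ := by linarith
    have h3 : 4 * hcap g / ‖z - x₀‖ ≤ 2 * r := by
      rw [div_le_iff₀ hn0]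
      nlinarith
    linarith

/-- The inverse map: `|f w - w| ≤ 6 r`. -/
theorem inv_norm_sub_le (h : IsHydro K g) {x₀ r : ℝ} (hr : 0 < r)
    (hK : K ⊆ closedBall (x₀ : ℂ) r) {w : ℂ} (hw : w ∈ HH) : ‖inv K g w - w‖ ≤ 6 * r := by
  have := h.norm_sub_le hr hK (h.inv_mem hw)
  rw [h.g_inv hw] at this
  rwa [norm_sub_rev]

/-- Uniqueness of the normalised map for the empty hull. -/
theorem eq_id_of_empty (h : IsHydro ∅ g) {z : ℂ} (hz : z ∈ HH) : g z = z := by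
  have h1 : ∀ r : ℝ, 0 < r → ‖g z - z‖ ≤ 6 * r := fun r hr =>
    h.norm_sub_le (x₀ := 0) hr (empty_subset _) ⟨hz, notMem_empty z⟩
  have h2 : ‖g z - z‖ ≤ 0 := by
    refine le_of_forall_pos_le_add fun ε hε => ?_
    have := h1 (ε / 6) (by positivity)
    linarith
  exact sub_eq_zero.mp (norm_le_zero_iff.mp h2)

theorem congr_set (h : IsHydro K g) {K' : Set ℂ} (hb : Bornology.IsBounded K')
    (e : HH \ K = HH \ K') : IsHydro K' g where
  bdd := hb
  isOpen := e ▸ h.isOpen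
  diff := e ▸ h.diff
  inj := e ▸ h.inj
  image := e ▸ h.image
  lim := e ▸ h.lim

theorem congr_fun (h : IsHydro K g) {g' : ℂ → ℂ} (e : ∀ z ∈ HH \ K, g' z = g z) :
    IsHydro K g' where
  bdd := h.bdd
  isOpen := h.isOpen
  diff := h.diff.congr e
  inj := fun x hx y hy hxy => h.inj hx hy (by rw [← e x hx, ← e y hy, hxy])
  image := (image_congr e).trans h.image
  lim := by
    refine h.lim.congr' ?_
    have : ∀ᶠ z in Bornology.cobounded ℂ ⊓ 𝓟 (HH \ K), z ∈ HH \ K :=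
      mem_inf_of_right (mem_principal_self _)
    filter_upwards [this] with z hz
    rw [e z hz]

end IsHydro

end Vale.Agent.P153.R2.L1
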