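import Mathlib.Analysis.Complex.Basic
import Mathlib.Analysis.Complex.Polynomial.Basic
import Mathlib.Analysis.Complex.Schwarz
import Mathlib.Analysis.Calculus.InverseFunctionTheorem.Deriv
import Mathlib.Analysis.Calculus.Deriv.Star
import Mathlib.Analysis.Complex.CauchyIntegral
import Mathlib.Analysis.Calculus.InverseFunctionTheorem.Analytic

/-!
# P153, block L1: the Joukowski map on the lower half disc, and symmetric Riemann maps
-/

open Set Filter Topology Metric Bornology Complex Function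

namespace Vale.Agent.P153.R2.L1

theorem jouk_im (ζ : ℂ) : (ζ + ζ⁻¹).im = ζ.im * (1 - (normSq ζ)⁻¹) := by
  rw [add_im, inv_im]; ring

theorem jouk_im_pos {ζ : ℂ} (h1 : ‖ζ‖ < 1) (h2 : ζ.im < 0) : 0 < (ζ + ζ⁻¹).im := by
  rw [jouk_im]
  have h0 : 0 < normSq ζ := by
    rw [normSq_pos]; rintro rfl; simp at h2
  have h3 : normSq ζ < 1 := by
    rw [normSq_eq_norm_sq]
    nlinarith [norm_nonneg ζ]
  have h4 : 1 < (normSq ζ)⁻¹ := (one_lt_inv₀ h0).2 h3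
  nlinarith

theorem jouk_surj {t : ℂ} (ht : 0 < t.im) : ∃ ζ : ℂ, ‖ζ‖ < 1 ∧ ζ.im < 0 ∧ ζ + ζ⁻¹ = t := by
  obtain ⟨s, hs⟩ : ∃ s : ℂ, s ^ 2 = t ^ 2 - 4 := by
    obtain ⟨s, hs⟩ := IsAlgClosed.exists_pow_nat_eq (t ^ 2 - 4) (n := 2) (by norm_num)
    exact ⟨s, hs⟩
  -- roots
  have hprod : ((t + s) / 2) * ((t - s) / 2) = 1 := by
    linear_combination (-1 / 4 : ℂ) * hs
  have key : ∀ ζ : ℂ, ζ ≠ 0 → ζ + ζ⁻¹ = t → ‖ζ‖ ≤ 1 → ‖ζ‖ < 1 ∧ ζ.im < 0 := by
    intro ζ h0 hζ h1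
    have him := congrArg Complex.im hζ
    rw [jouk_im] at him
    have hn0 : 0 < normSq ζ := normSq_pos.2 h0
    have hn1 : normSq ζ ≤ 1 := by
      rw [normSq_eq_norm_sq]
      nlinarith [norm_nonneg ζ]
    have hlt : ‖ζ‖ < 1 := by
      refine lt_of_le_of_ne h1 fun h => ?_
      rw [normSq_eq_norm_sq, h] at him
      norm_num at him
      linarith
    refine ⟨hlt, ?_⟩
    have h4 : 1 ≤ (normSq ζ)⁻¹ := (one_le_inv₀ hn0).2 hn1
    by_contra hcon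
    push Not at hcon
    have : ζ.im * (1 - (normSq ζ)⁻¹) ≤ 0 := mul_nonpos_of_nonneg_of_nonpos hcon (by linarith)
    linarith
  have h1 : (t + s) / 2 ≠ 0 := fun h => by rw [h] at hprod; simp at hprod
  have h2 : (t - s) / 2 ≠ 0 := fun h => by rw [h] at hprod; simp at hprod
  have e1 : ((t + s) / 2)⁻¹ = (t - s) / 2 := by
    rw [inv_eq_iff_eq_inv]; exact eq_inv_of_mul_eq_one_left hprod
  have e2 : ((t - s) / 2)⁻¹ = (t + s) / 2 := by
    rw [inv_eq_iff_eq_inv]; exact eq_inv_of_mul_eq_one_left (by rw [mul_comm]; exact hprod)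
  rcases le_total ‖(t + s) / 2‖ 1 with h | h
  · have h3 : (t + s) / 2 + ((t + s) / 2)⁻¹ = t := by rw [e1]; ring
    obtain ⟨h4, h5⟩ := key _ h1 h3 h
    exact ⟨_, h4, h5, h3⟩
  · have h3 : (t - s) / 2 + ((t - s) / 2)⁻¹ = t := by rw [e2]; ring
    have h6 : ‖(t - s) / 2‖ ≤ 1 := by
      rw [← e1, norm_inv]
      exact inv_le_one_of_one_le₀ h
    obtain ⟨h4, h5⟩ := key _ h2 h3 h6
    exact ⟨_, h4, h5, h3⟩

theorem jouk_inj {ζ ξ : ℂ} (h1 : ‖ζ‖ < 1) (h2 : ‖ξ‖ < 1) (h3 : ζ ≠ 0) (h4 : ξ ≠ 0)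
    (h : ζ + ζ⁻¹ = ξ + ξ⁻¹) : ζ = ξ := by
  have h5 : (ζ - ξ) * (ζ * ξ - 1) = 0 := by
    field_simp at h
    linear_combination h
  rcases mul_eq_zero.1 h5 with h6 | h6
  · exact sub_eq_zero.1 h6
  · exfalso
    have h7 : ‖ζ * ξ‖ = 1 := by rw [sub_eq_zero.1 h6]; simp
    rw [norm_mul] at h7
    nlinarith [norm_nonneg ζ, norm_nonneg ξ]

/-- A holomorphic self map of the disc fixing `0` with derivative `1` is the identity. -/
theorem eq_id_of_schwarz {φ : ℂ → ℂ} (hd : DifferentiableOn ℂ φ (ball 0 1))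
    (hm : MapsTo φ (ball 0 1) (ball 0 1)) (h0 : φ 0 = 0) (h1 : deriv φ 0 = 1) :
    ∀ z ∈ ball (0 : ℂ) 1, φ z = z := by
  intro z hz
  have hm' : MapsTo φ (ball 0 1) (closedBall (φ 0) 1) := fun w hw => by
    rw [h0]; exact ball_subset_closedBall (hm hw)
  have h := Complex.affine_of_mapsTo_ball_of_norm_dslope_eq_div hd hm'
    (mem_ball_self one_pos) (by rw [dslope_same, h1]; simp) hz
  rw [h, dslope_same, h1, h0]; simp

/-- a symmetric Riemann map of `U` onto the disc -/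
structure SymMap (U : Set ℂ) (F : ℂ → ℂ) (c : ℝ) : Prop where
  diff : DifferentiableOn ℂ F U
  inj : InjOn F U
  image : F '' U = ball 0 1
  zero : F 0 = 0
  pos : 0 < c
  deriv_zero : deriv F 0 = c
  symm : ∀ w ∈ U, F ((starRingEnd ℂ) w) = (starRingEnd ℂ) (F w)

theorem exists_symMap {U : Set ℂ} (hU : IsOpen U) (h0 : (0 : ℂ) ∈ U)
    (hs : ∀ w ∈ U, (starRingEnd ℂ) w ∈ U) {G : ℂ → ℂ} (hG : DifferentiableOn ℂ G U)
    (hinj : InjOn G U) (him : G '' U = ball 0 1) (hder : ∀ z ∈ U, deriv G z ≠ 0)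
    (hG0 : G 0 = 0) : ∃ F : ℂ → ℂ, ∃ c : ℝ, SymMap U F c := by
  set a := deriv G 0 with ha
  have ha0 : a ≠ 0 := hder 0 h0
  have hna : (0 : ℝ) < ‖a‖ := norm_pos_iff.2 ha0
  set u : ℂ := (starRingEnd ℂ) a / ‖a‖ with hu
  have hu1 : ‖u‖ = 1 := by
    rw [hu, norm_div, RCLike.norm_conj]; simp [ha0]
  have hu0 : u ≠ 0 := by rw [← norm_pos_iff, hu1]; exact one_pos
  have hua : u * a = ‖a‖ := by
    have : (‖a‖ : ℂ) ≠ 0 := by exact_mod_cast hna.ne'
    rw [hu, div_mul_eq_mul_div, div_eq_iff this, mul_comm, Complex.mul_conj]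
    rw [Complex.normSq_eq_norm_sq]; push_cast; ring
  set F : ℂ → ℂ := fun w => u * G w with hF
  have hFd : DifferentiableOn ℂ F U := hG.const_mul u
  have hFinj : InjOn F U := by
    intro x hx y hy h
    exact hinj hx hy (mul_left_cancel₀ hu0 h)
  have hFim : F '' U = ball 0 1 := by
    apply Subset.antisymm
    · rintro _ ⟨w, hw, rfl⟩
      have : G w ∈ ball (0 : ℂ) 1 := him ▸ mem_image_of_mem _ hw
      rw [mem_ball_zero_iff] at this ⊢
      rw [hF]; simp only [norm_mul, hu1, one_mul]; exact this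
    · intro w hw
      have : u⁻¹ * w ∈ ball (0 : ℂ) 1 := by
        rw [mem_ball_zero_iff] at hw ⊢
        rw [norm_mul, norm_inv, hu1]; simpa using hw
      rw [← him] at this
      obtain ⟨x, hx, hxw⟩ := this
      exact ⟨x, hx, by rw [hF]; simp only [hxw]; field_simp⟩
  have hFder : ∀ z ∈ U, deriv F z ≠ 0 := by
    intro z hz
    rw [hF, deriv_const_mul _ (hG.differentiableAt (hU.mem_nhds hz))]
    exact mul_ne_zero hu0 (hder z hz)
  have hF0 : F 0 = 0 := by rw [hF]; simp [hG0]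
  have hFc : deriv F 0 = (‖a‖ : ℝ) := by
    rw [hF, deriv_const_mul _ (hG.differentiableAt (hU.mem_nhds h0)), ← ha, hua]
  -- the inverse
  have hsd : ∀ z ∈ U, HasStrictDerivAt F (deriv F z) z := fun z hz =>
    (hFd.analyticOnNhd hU z hz).hasStrictDerivAt
  set Φ : ℂ → ℂ := invFunOn F U with hΦ
  have hΦU : ∀ w ∈ ball (0 : ℂ) 1, Φ w ∈ U ∧ F (Φ w) = w := by
    intro w hw
    rw [← hFim] at hw
    exact ⟨invFunOn_mem hw, invFunOn_eq hw⟩
  have hcont : ∀ w ∈ ball (0 : ℂ) 1, ContinuousAt Φ w := by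
    intro w hw
    obtain ⟨hz, hgz⟩ := hΦU w hw
    rw [ContinuousAt, Filter.tendsto_def]
    intro s hs
    have h6 : F '' (s ∩ U) ∈ 𝓝 (F (Φ w)) := by
      rw [← (hsd _ hz).map_nhds_eq (hFder _ hz)]
      exact image_mem_map (inter_mem hs (hU.mem_nhds hz))
    rw [hgz] at h6
    filter_upwards [h6] with y hy
    obtain ⟨x, ⟨hxs, hxU⟩, rfl⟩ := hy
    have hy' : F x ∈ ball (0 : ℂ) 1 := by rw [← hFim]; exact mem_image_of_mem _ hxU
    have := hFinj (hΦU _ hy').1 hxU (hΦU _ hy').2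
    show Φ (F x) ∈ s
    rw [this]; exact hxs
  have hΦd : ∀ w ∈ ball (0 : ℂ) 1, HasStrictDerivAt Φ (deriv F (Φ w))⁻¹ w := by
    intro w hw
    refine HasStrictDerivAt.of_local_left_inverse (hcont w hw) (hsd _ (hΦU w hw).1)
      (hFder _ (hΦU w hw).1) ?_
    filter_upwards [isOpen_ball.mem_nhds hw] with y hy
    exact (hΦU y hy).2
  have hball0 : (0 : ℂ) ∈ ball (0 : ℂ) 1 := mem_ball_self one_pos
  have hΦ0 : Φ 0 = 0 := hFinj (hΦU 0 hball0).1 h0 (by rw [(hΦU 0 hball0).2, hF0])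
  -- the reflected map
  set Fs : ℂ → ℂ := (starRingEnd ℂ) ∘ F ∘ (starRingEnd ℂ) with hFs
  have hFsd : ∀ w ∈ U, HasDerivAt Fs ((starRingEnd ℂ) (deriv F ((starRingEnd ℂ) w))) w := by
    intro w hw
    have h := ((hFd.differentiableAt (hU.mem_nhds (hs w hw))).hasDerivAt).conj_conj
    rw [Complex.conj_conj] at h
    exact h
  set φ : ℂ → ℂ := Fs ∘ Φ with hφ
  have hφd : ∀ w ∈ ball (0 : ℂ) 1, HasDerivAt φ
      ((starRingEnd ℂ) (deriv F ((starRingEnd ℂ) (Φ w))) * (deriv F (Φ w))⁻¹) w := by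
    intro w hw
    exact (hFsd _ (hΦU w hw).1).comp w (hΦd w hw).hasDerivAt
  have hφm : MapsTo φ (ball 0 1) (ball 0 1) := by
    intro w hw
    have h1 : F ((starRingEnd ℂ) (Φ w)) ∈ ball (0 : ℂ) 1 :=
      hFim ▸ mem_image_of_mem _ (hs _ (hΦU w hw).1)
    rw [mem_ball_zero_iff] at h1 ⊢
    simpa [hφ, hFs] using h1
  have hφ0 : φ 0 = 0 := by simp [hφ, hFs, hΦ0, hF0]
  have hφ1 : deriv φ 0 = 1 := by
    rw [(hφd 0 hball0).deriv, hΦ0, map_zero, hFc, Complex.conj_ofReal]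
    exact mul_inv_cancel₀ (by exact_mod_cast hna.ne')
  have hid := eq_id_of_schwarz (fun w hw => (hφd w hw).differentiableAt.differentiableWithinAt)
    hφm hφ0 hφ1
  refine ⟨F, ‖a‖, hFd, hFinj, hFim, hF0, hna, hFc, fun w hw => ?_⟩
  have hFw : F w ∈ ball (0 : ℂ) 1 := hFim ▸ mem_image_of_mem _ hw
  have h1 := hid _ hFw
  have h2 : Φ (F w) = w := hFinj (hΦU _ hFw).1 hw (hΦU _ hFw).2
  rw [hφ, Function.comp_apply, h2] at h1
  have h3 := congrArg (starRingEnd ℂ) h1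
  simpa [hFs] using h3

end Vale.Agent.P153.R2.L1
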