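import Vale.Agent.P153.R2.L1.Stmt
import Vale.Agent.P153.R2.L1.Jouk
import Vale.Agent.P153.R2.L1.Rmt

/-!
# P153, block L1: existence of the hydrodynamically normalised map
-/

open Set Filter Topology Metric Bornology Complex Function

namespace Vale.Agent.P153.R2.L1

/-- symmetrised hull together with a real segment -/
def Kss (K : Set ℂ) (R : ℝ) : Set ℂ :=
  K ∪ (starRingEnd ℂ) ⁻¹' K ∪ {z : ℂ | z.im = 0 ∧ |z.re| ≤ R}

/-- the domain in the inverted coordinate `w = 1 / (z - R)` -/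
def Uw (K : Set ℂ) (R : ℝ) : Set ℂ := {w : ℂ | w = 0 ∨ (R : ℂ) + w⁻¹ ∉ Kss K R}

section

variable {K : Set ℂ} {R : ℝ}

theorem Kss_conj {z : ℂ} (hz : (starRingEnd ℂ) z ∈ Kss K R) : z ∈ Kss K R := by
  rcases hz with (h | h) | h
  · exact Or.inl (Or.inr h)
  · refine Or.inl (Or.inl ?_)
    rw [mem_preimage, Complex.conj_conj] at h
    exact h
  · refine Or.inr ?_
    simp only [mem_ofPred_eq, conj_im, neg_eq_zero, conj_re] at h
    exact h

theorem isClosed_Kss (hK : IsCompact K) : IsClosed (Kss K R) := by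
  refine (hK.isClosed.union (hK.isClosed.preimage continuous_conj)).union ?_
  exact (isClosed_eq continuous_im continuous_const).inter
    (isClosed_le (continuous_abs.comp continuous_re) continuous_const)

theorem norm_le_of_mem_Kss (hKR : K ⊆ ball 0 R) {z : ℂ} (hz : z ∈ Kss K R) : ‖z‖ ≤ R := by
  rcases hz with (h | h) | h
  · exact (mem_ball_zero_iff.1 (hKR h)).le
  · have := mem_ball_zero_iff.1 (hKR h)
    rw [RCLike.norm_conj] at this
    exact this.le
  · obtain ⟨h1, h2⟩ := h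
    have : z = (z.re : ℂ) := Complex.ext rfl (by simpa using h1)
    rw [this, Complex.norm_real]
    exact h2

theorem isOpen_Uw (hK : IsCompact K) (hKR : K ⊆ ball 0 R) (hR : 0 < R) : IsOpen (Uw K R) := by
  rw [isOpen_iff_mem_nhds]
  rintro w (rfl | hw)
  · filter_upwards [ball_mem_nhds (0 : ℂ) (show 0 < 1 / (2 * R) by positivity)] with w hw
    rw [mem_ball_zero_iff] at hw
    by_cases h0 : w = 0
    · exact Or.inl h0
    refine Or.inr fun h => ?_
    have h1 := norm_le_of_mem_Kss hKR h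
    have hw0 : 0 < ‖w‖ := norm_pos_iff.2 h0
    have h2 : 2 * R < ‖w‖⁻¹ := by
      rw [lt_inv_comm₀ (by positivity) hw0, ← one_div]; exact hw
    have h3 : ‖w⁻¹‖ ≤ ‖(R : ℂ) + w⁻¹‖ + ‖(R : ℂ)‖ := by
      have := norm_sub_le ((R : ℂ) + w⁻¹) (R : ℂ)
      rwa [add_sub_cancel_left] at this
    rw [norm_inv, Complex.norm_real, Real.norm_eq_abs, abs_of_pos hR] at h3
    linarith
  · by_cases h0 : w = 0
    · subst h0
      exfalso
      apply hw
      refine Or.inr ⟨by simp, by simp [abs_of_pos hR]⟩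
    have hc : ContinuousAt (fun w : ℂ => (R : ℂ) + w⁻¹) w :=
      continuousAt_const.add (continuousAt_inv₀ h0)
    have := hc.preimage_mem_nhds ((isClosed_Kss (R := R) hK).isOpen_compl.mem_nhds hw)
    filter_upwards [this] with v hv
    exact Or.inr hv

theorem Uw_conj {w : ℂ} (hw : w ∈ Uw K R) : (starRingEnd ℂ) w ∈ Uw K R := by
  rcases hw with rfl | hw
  · left; simp
  · right
    intro h
    apply hw
    apply Kss_conj
    have : (R : ℂ) + ((starRingEnd ℂ) w)⁻¹ = (starRingEnd ℂ) ((R : ℂ) + w⁻¹) := by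
      simp
    rwa [this] at h

theorem im_inv_pos {w : ℂ} (hw : w.im < 0) : 0 < (w⁻¹).im := by
  rw [inv_im]
  have : 0 < normSq w := by rw [normSq_pos]; rintro rfl; simp at hw
  exact div_pos (by linarith) this

theorem im_inv_neg {w : ℂ} (hw : 0 < w.im) : (w⁻¹).im < 0 := by
  rw [inv_im]
  have : 0 < normSq w := by rw [normSq_pos]; rintro rfl; simp at hw
  exact div_neg_of_neg_of_pos (by linarith) this

/-- lower part of `Uw` -/
theorem Uw_lower (hK0 : ∀ z ∈ K, 0 ≤ z.im) :
    {w : ℂ | w.im < 0} ∩ Uw K R = (fun z : ℂ => (z - R)⁻¹) '' (HH \ K) := by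
  ext w
  constructor
  · rintro ⟨hw1, hw2⟩
    have hw0 : w ≠ 0 := by rintro rfl; simp at hw1
    have hw3 := hw2.resolve_left hw0
    refine ⟨(R : ℂ) + w⁻¹, ⟨?_, fun h => hw3 (Or.inl (Or.inl h))⟩, ?_⟩
    · simp only [HH, mem_ofPred_eq, add_im, ofReal_im, zero_add]
      exact im_inv_pos hw1
    · simp
  · rintro ⟨z, ⟨hz1, hz2⟩, rfl⟩
    simp only [HH, mem_ofPred_eq] at hz1
    have hzR : (z - R).im = z.im := by simp
    have h1 : ((z - R)⁻¹).im < 0 := im_inv_neg (by rw [hzR]; exact hz1)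
    refine ⟨h1, Or.inr ?_⟩
    rw [inv_inv, add_sub_cancel]
    rintro ((h | h) | h)
    · exact hz2 h
    · have := hK0 _ h
      rw [conj_im] at this
      linarith
    · exact hz1.ne' h.1

theorem Uw_real (hR : 0 < R) (hKR : K ⊆ ball 0 R) {x : ℝ} : (x : ℂ) ∈ Uw K R ↔ -(2 * R)⁻¹ < x := by
  have hR2 : 0 < (2 * R)⁻¹ := by positivity
  constructor
  · intro hx
    by_contra hcon
    push Not at hcon
    have hx0 : x < 0 := by linarith
    have hx0' : (x : ℂ) ≠ 0 := by exact_mod_cast hx0.ne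
    refine hx.resolve_left hx0' (Or.inr ⟨by simp, ?_⟩)
    have h1 : ((R : ℂ) + (x : ℂ)⁻¹).re = R + x⁻¹ := by
      rw [← ofReal_inv, ← ofReal_add, ofReal_re]
    rw [h1, abs_le]
    have h2 : x⁻¹ < 0 := inv_lt_zero.2 hx0
    have h3 : -(2 * R) ≤ x⁻¹ := by
      rw [← neg_le_neg_iff, neg_neg, ← inv_neg]
      rw [inv_le_comm₀ (by linarith) (by positivity)]
      linarith
    constructor <;> linarith
  · intro hx
    by_cases hx0 : x = 0
    · left; simp [hx0]
    right
    intro h
    have h1 := norm_le_of_mem_Kss hKR h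
    rw [← ofReal_inv, ← ofReal_add, Complex.norm_real, Real.norm_eq_abs, abs_le] at h1
    rcases lt_or_gt_of_ne hx0 with h0 | h0
    · have h3 : x⁻¹ < -(2 * R) := by
        rw [← neg_lt_neg_iff, neg_neg, ← inv_neg]
        rw [lt_inv_comm₀ (by positivity) (by linarith)]
        linarith
      linarith [h1.1]
    · have := inv_pos.2 h0
      linarith [h1.2]

theorem isPreconnected_Uw (hK : IsHull K) (hKR : K ⊆ ball 0 R) (hR : 0 < R) :
    IsPreconnected (Uw K R) := by
  set A := {w : ℂ | w.im < 0} ∩ Uw K R with hA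
  set B := (starRingEnd ℂ) ⁻¹' A with hB
  set I := Complex.ofReal '' Ioi (-(2 * R)⁻¹) with hI
  have hAc : IsPreconnected A := by
    rw [hA, Uw_lower hK.im_nonneg]
    refine hK.compl.image _ ?_
    intro z hz
    refine ContinuousAt.continuousWithinAt ?_
    refine ContinuousAt.inv₀ (by fun_prop) ?_
    have h1 : 0 < z.im := hz.1
    intro h
    have := congrArg Complex.im h
    simp at this
    linarith
  have hIU : I ⊆ Uw K R := by
    rintro _ ⟨x, hx, rfl⟩
    exact (Uw_real hR hKR).2 hx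
  have hIc : IsPreconnected I := isPreconnected_Ioi.image _ continuous_ofReal.continuousOn
  have hIA : I ⊆ closure A := by
    rintro _ ⟨x, hx, rfl⟩
    have hU := isOpen_Uw hK.compact hKR hR
    have hx' : (x : ℂ) ∈ Uw K R := hIU ⟨x, hx, rfl⟩
    rw [mem_closure_iff_seq_limit]
    have ht : Tendsto (fun n : ℕ => (x : ℂ) - (1 / ((n : ℝ) + 1) : ℝ) * Complex.I) atTop
        (𝓝 ((x : ℂ) - ((0 : ℝ) : ℂ) * Complex.I)) := by
      refine tendsto_const_nhds.sub (Tendsto.mul_const _ ?_)
      exact (continuous_ofReal.tendsto 0).comp tendsto_one_div_add_atTop_nhds_zero_nat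
    simp only [ofReal_zero, zero_mul, sub_zero] at ht
    obtain ⟨N, hN⟩ := eventually_atTop.1 (ht.eventually (hU.mem_nhds hx'))
    refine ⟨fun n => (x : ℂ) - (1 / (((n + N : ℕ) : ℝ) + 1) : ℝ) * Complex.I, fun n => ⟨?_, ?_⟩, ?_⟩
    · have : (0 : ℝ) < 1 / (((n + N : ℕ) : ℝ) + 1) := by positivity
      simp only [mem_ofPred_eq, sub_im, ofReal_im, mul_im, ofReal_re, I_im, mul_one, I_re, mul_zero,
        add_zero, zero_sub, neg_lt_zero]
      exact this
    · exact hN (n + N) (by omega)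
    · exact (tendsto_add_atTop_iff_nat N).2 ht
  have hAI : IsPreconnected (A ∪ I) :=
    hAc.subset_closure subset_union_left (union_subset subset_closure hIA)
  have hconjI : (starRingEnd ℂ) ⁻¹' I = I := by
    ext w
    constructor
    · rintro ⟨x, hx, hxw⟩
      refine ⟨x, hx, ?_⟩
      have := congrArg (starRingEnd ℂ) hxw
      simpa using this
    · rintro ⟨x, hx, rfl⟩
      exact ⟨x, hx, by simp⟩
  have hBI : IsPreconnected (B ∪ I) := by
    have h1 : B ∪ I = (starRingEnd ℂ) '' (A ∪ I) := by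
      have : (starRingEnd ℂ) '' (A ∪ I) = (starRingEnd ℂ) ⁻¹' (A ∪ I) := by
        ext w
        constructor
        · rintro ⟨v, hv, rfl⟩
          simpa using hv
        · intro hw
          exact ⟨(starRingEnd ℂ) w, hw, by simp⟩
      rw [this, preimage_union, hconjI]
    rw [h1]
    exact hAI.image _ continuous_conj.continuousOn
  have h0 : (0 : ℂ) ∈ I := ⟨0, by simp only [mem_Ioi]; linarith [show 0 < (2 * R)⁻¹ by positivity], by simp⟩
  have hU : Uw K R = (A ∪ I) ∪ (B ∪ I) := by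
    ext w
    constructor
    · intro hw
      rcases lt_trichotomy w.im 0 with h | h | h
      · exact Or.inl (Or.inl ⟨h, hw⟩)
      · have hwx : w = (w.re : ℂ) := Complex.ext rfl (by simpa using h)
        refine Or.inl (Or.inr ⟨w.re, ?_, hwx.symm⟩)
        rw [hwx] at hw
        exact (Uw_real hR hKR).1 hw
      · refine Or.inr (Or.inl ⟨?_, Uw_conj hw⟩)
        simpa using h
    · rintro ((h | h) | (h | h))
      · exact h.2
      · exact hIU h
      · have := Uw_conj h.2
        rwa [Complex.conj_conj] at this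
      · exact hIU h
  rw [hU]
  exact hAI.union 0 (Or.inr h0) (Or.inr h0) hBI

theorem preconn_seg (hK : IsHull K) (hKR : K ⊆ ball 0 R) (hR : 0 < R) :
    IsPreconnected (K ∪ Complex.ofReal '' Ico (-R) R) := by
  -- a smaller radius
  obtain ⟨r, hr0, hrR, hKr⟩ : ∃ r, 0 ≤ r ∧ r < R ∧ ∀ z ∈ K, ‖z‖ ≤ r := by
    rcases K.eq_empty_or_nonempty with rfl | hne
    · exact ⟨0, le_rfl, hR, fun z hz => hz.elim⟩
    · obtain ⟨z, hz, hmax⟩ := hK.compact.exists_isMaxOn hne continuous_norm.continuousOn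
      exact ⟨‖z‖, norm_nonneg _, mem_ball_zero_iff.1 (hKR hz), fun w hw => hmax hw⟩
  have hcl : IsClosed {z : ℂ | z.im = 0} := isClosed_eq continuous_im continuous_const
  classical
  let p : ℂ → ℂ := K.piecewise id (fun z => ((max (-r) (min r z.re) : ℝ) : ℂ))
  have hp : ContinuousOn p (K ∪ {z : ℂ | z.im = 0}) := by
    refine ContinuousOn.union_of_isClosed ?_ ?_ hK.compact.isClosed hcl
    · exact continuousOn_id.congr fun z hz => piecewise_eq_of_mem _ _ _ hz
    · have hc : Continuous fun z : ℂ => ((max (-r) (min r z.re) : ℝ) : ℂ) :=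
        continuous_ofReal.comp (continuous_const.max (continuous_const.min continuous_re))
      refine hc.continuousOn.congr fun z hz => ?_
      by_cases hzK : z ∈ K
      · have h1 : z = (z.re : ℂ) := Complex.ext rfl (by simpa using hz)
        have h2 := hKr z hzK
        rw [h1, Complex.norm_real, Real.norm_eq_abs, abs_le] at h2
        have h3 : p z = z := piecewise_eq_of_mem _ _ _ hzK
        rw [h3]
        show z = ((max (-r) (min r z.re) : ℝ) : ℂ)
        rw [min_eq_right h2.2, max_eq_right h2.1]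
        exact h1
      · exact piecewise_eq_of_notMem _ _ _ hzK
  have himg : p '' (K ∪ {z : ℂ | z.im = 0}) = K ∪ Complex.ofReal '' Icc (-r) r := by
    ext w
    constructor
    · rintro ⟨z, hz, rfl⟩
      by_cases hzK : z ∈ K
      · left
        have h3 : p z = z := piecewise_eq_of_mem _ _ _ hzK
        rw [h3]; exact hzK
      · right
        have h3 : p z = _ := piecewise_eq_of_notMem _ _ _ hzK
        rw [h3]
        exact ⟨_, ⟨le_max_left _ _, max_le (by linarith) (min_le_left _ _)⟩, rfl⟩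
    · rintro (hw | ⟨x, hx, rfl⟩)
      · exact ⟨w, Or.inl hw, piecewise_eq_of_mem _ _ _ hw⟩
      · refine ⟨(x : ℂ), Or.inr (by simp), ?_⟩
        by_cases hxK : (x : ℂ) ∈ K
        · exact piecewise_eq_of_mem _ _ _ hxK
        · have h3 : p (x : ℂ) = _ := piecewise_eq_of_notMem _ _ _ hxK
          rw [h3]
          simp [min_eq_right hx.2, max_eq_right hx.1]
  have h1 : IsPreconnected (K ∪ Complex.ofReal '' Icc (-r) r) := himg ▸ hK.conn.image p hp
  have h2 : IsPreconnected (Complex.ofReal '' Ico (-R) R) :=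
    isPreconnected_Ico.image _ continuous_ofReal.continuousOn
  have h3 : K ∪ Complex.ofReal '' Ico (-R) R =
      (K ∪ Complex.ofReal '' Icc (-r) r) ∪ Complex.ofReal '' Ico (-R) R := by
    rw [union_assoc, ← image_union]
    congr 2
    symm
    apply union_eq_self_of_subset_left
    exact fun x hx => ⟨by linarith [hx.1], by linarith [hx.2]⟩
  rw [h3]
  exact h1.union (0 : ℂ) (Or.inr ⟨0, ⟨by linarith, hr0⟩, by simp⟩)
    ⟨0, ⟨by linarith, hR⟩, by simp⟩ h2

theorem noBdd_Uw (hK : IsHull K) (hKR : K ⊆ ball 0 R) (hR : 0 < R) :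
    P153.TOP.NoBdd (Uw K R) := by
  intro w hw
  have hsegs := preconn_seg hK hKR hR
  set S1 := K ∪ Complex.ofReal '' Ico (-R) R with hS1
  have hS2 : IsPreconnected ((starRingEnd ℂ) '' S1) := hsegs.image _ continuous_conj.continuousOn
  have h0S1 : (0 : ℂ) ∈ S1 := Or.inr ⟨0, ⟨by linarith, hR⟩, by simp⟩
  have hS : IsPreconnected (S1 ∪ (starRingEnd ℂ) '' S1) :=
    hsegs.union 0 h0S1 ⟨0, h0S1, by simp⟩ hS2
  set S := S1 ∪ (starRingEnd ℂ) '' S1 with hSdef
  have hSR : (R : ℂ) ∉ S := by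
    have hR1 : (R : ℂ) ∉ S1 := by
      rintro (h | ⟨x, hx, hxR⟩)
      · have := mem_ball_zero_iff.1 (hKR h)
        rw [Complex.norm_real, Real.norm_eq_abs, abs_of_pos hR] at this
        exact lt_irrefl _ this
      · have : x = R := by exact_mod_cast hxR
        exact absurd hx.2 (by rw [this]; exact lt_irrefl _)
    rintro (h | ⟨z, hz, hzR⟩)
    · exact hR1 h
    · have h1 := congrArg (starRingEnd ℂ) hzR
      rw [Complex.conj_conj, Complex.conj_ofReal] at h1
      rw [h1] at hz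
      exact hR1 hz
  have hSK : ∀ z, z ∈ S ↔ z ∈ Kss K R ∧ z ≠ R := by
    intro z
    constructor
    · intro hz
      refine ⟨?_, fun h => hSR (h ▸ hz)⟩
      rcases hz with (h | ⟨x, hx, rfl⟩) | ⟨v, (h | ⟨x, hx, rfl⟩), rfl⟩
      · exact Or.inl (Or.inl h)
      · refine Or.inr ⟨by simp, ?_⟩
        simp only [ofReal_re, abs_le]
        exact ⟨hx.1, hx.2.le⟩
      · refine Or.inl (Or.inr ?_)
        simpa using h
      · refine Or.inr ⟨by simp, ?_⟩
        simp only [conj_re, ofReal_re, abs_le]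
        exact ⟨hx.1, hx.2.le⟩
    · rintro ⟨(h | h) | h, hzR⟩
      · exact Or.inl (Or.inl h)
      · exact Or.inr ⟨(starRingEnd ℂ) z, Or.inl h, by simp⟩
      · obtain ⟨h1, h2⟩ := h
        have h3 : z = (z.re : ℂ) := Complex.ext rfl (by simpa using h1)
        refine Or.inl (Or.inr ⟨z.re, ⟨(abs_le.1 h2).1, lt_of_le_of_ne (abs_le.1 h2).2 ?_⟩, h3.symm⟩)
        intro h4
        apply hzR
        rw [h3, h4]
  set C := (fun z : ℂ => (z - R)⁻¹) '' S with hC
  have hCU : C = (Uw K R)ᶜ := by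
    ext v
    constructor
    · rintro ⟨z, hz, rfl⟩
      obtain ⟨h1, h2⟩ := (hSK z).1 hz
      rintro (h | h)
      · exact (inv_ne_zero (sub_ne_zero.2 h2)) h
      · apply h
        rw [inv_inv, add_sub_cancel]
        exact h1
    · intro hv
      have hv0 : v ≠ 0 := fun h => hv (Or.inl h)
      have hv1 : (R : ℂ) + v⁻¹ ∈ Kss K R := by
        by_contra h
        exact hv (Or.inr h)
      refine ⟨(R : ℂ) + v⁻¹, (hSK _).2 ⟨hv1, ?_⟩, by simp⟩
      intro h
      have : v⁻¹ = 0 := by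
        have h5 : (R : ℂ) + v⁻¹ - R = 0 := by rw [h, sub_self]
        simpa using h5
      exact inv_ne_zero hv0 this
  have hCc : IsPreconnected C := by
    refine hS.image _ fun z hz => ContinuousAt.continuousWithinAt ?_
    exact ContinuousAt.inv₀ (by fun_prop) (sub_ne_zero.2 fun h => hSR (h ▸ hz))
  refine ⟨C, hCc, hCU ▸ hw, hCU.subset, fun hb => ?_⟩
  obtain ⟨M, hM⟩ := hb.exists_norm_le
  -- take a point of the segment very close to R
  set ε := min R (1 / (|M| + 1)) with hε
  have hε0 : 0 < ε := lt_min hR (by positivity)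
  have hmem : ((R - ε : ℝ) : ℂ) ∈ S := by
    refine Or.inl (Or.inr ⟨R - ε, ⟨?_, by linarith⟩, rfl⟩)
    have := min_le_left R (1 / (|M| + 1))
    linarith
  have h1 := hM _ (mem_image_of_mem (fun z : ℂ => (z - R)⁻¹) hmem)
  have h2 : ((R - ε : ℝ) : ℂ) - R = ((-ε : ℝ) : ℂ) := by push_cast; ring
  simp only [h2] at h1
  rw [norm_inv, Complex.norm_real, norm_neg, Real.norm_eq_abs, abs_of_pos hε0] at h1
  have h3 : ε ≤ 1 / (|M| + 1) := min_le_right _ _
  have h4 : |M| + 1 ≤ ε⁻¹ := by
    rw [le_inv_comm₀ (by positivity) hε0, ← one_div]; exact h3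
  linarith [le_abs_self M]

theorem Uw_ne_univ (hR : 0 < R) (hKR : K ⊆ ball 0 R) : Uw K R ≠ univ := by
  intro h
  have h1 : ((-(R)⁻¹ : ℝ) : ℂ) ∈ Uw K R := h ▸ mem_univ _
  rw [Uw_real hR hKR] at h1
  have : (2 * R)⁻¹ < R⁻¹ := by
    rw [inv_lt_inv₀ (by positivity) hR]; linarith
  linarith

end

/-- the map in terms of a symmetric Riemann map of `Uw` -/
theorem hydro_of_symMap {K : Set ℂ} {R c : ℝ} {F : ℂ → ℂ} (hK : IsHull K) (hKR : K ⊆ ball 0 R)
    (hR : 0 < R) (hF : SymMap (Uw K R) F c) : ∃ g, IsHydro K g := by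
  have hU := isOpen_Uw hK.compact hKR hR
  have h0U : (0 : ℂ) ∈ Uw K R := Or.inl rfl
  have hc0 : (c : ℂ) ≠ 0 := by exact_mod_cast hF.pos.ne'
  -- `F w` is real iff `w` is real
  have hreal : ∀ w ∈ Uw K R, (F w).im = 0 → w.im = 0 := by
    intro w hw h
    have h1 : F ((starRingEnd ℂ) w) = F w := by
      rw [hF.symm w hw]; exact conj_eq_iff_im.2 h
    exact conj_eq_iff_im.1 (hF.inj (Uw_conj hw) hw h1)
  set A := {w : ℂ | w.im < 0} ∩ Uw K R with hA
  have hAc : IsPreconnected A := by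
    rw [hA, Uw_lower hK.im_nonneg]
    refine hK.compl.image _ ?_
    intro z hz
    refine ContinuousAt.continuousWithinAt ?_
    refine ContinuousAt.inv₀ (by fun_prop) ?_
    have h1 : 0 < z.im := hz.1
    intro h
    have := congrArg Complex.im h
    simp at this
    linarith
  -- dslope
  set F1 := dslope F 0 with hF1
  have hF1d : DifferentiableOn ℂ F1 (Uw K R) :=
    (differentiableOn_dslope (hU.mem_nhds h0U)).2 hF.diff
  have hF10 : F1 0 = c := by rw [hF1, dslope_same, hF.deriv_zero]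
  have hFF1 : ∀ w, F w = w * F1 w := by
    intro w
    have := sub_smul_dslope F 0 w
    rw [hF.zero, sub_zero, sub_zero, smul_eq_mul] at this
    exact this.symm
  -- a point of `A` near `0` with negative imaginary part of `F`
  have hneg : ∃ w ∈ A, (F w).im < 0 := by
    have hcont : ContinuousAt F1 0 := (hF1d.differentiableAt (hU.mem_nhds h0U)).continuousAt
    have ht : Tendsto (fun ε : ℝ => (-(ε : ℂ) * Complex.I)) (𝓝[>] 0) (𝓝 0) := by
      have : Continuous fun ε : ℝ => (-(ε : ℂ) * Complex.I) := by fun_prop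
      have h1 := this.tendsto 0
      simp only [ofReal_zero, neg_zero, zero_mul] at h1
      exact h1.mono_left nhdsWithin_le_nhds
    have h2 : ∀ᶠ ε : ℝ in 𝓝[>] 0, 0 < (F1 (-(ε : ℂ) * Complex.I)).re := by
      have h3 : Tendsto (fun ε : ℝ => (F1 (-(ε : ℂ) * Complex.I)).re) (𝓝[>] 0) (𝓝 (F1 0).re) :=
        (continuous_re.continuousAt.tendsto.comp hcont.tendsto).comp ht
      rw [hF10, ofReal_re] at h3
      exact h3.eventually (lt_mem_nhds hF.pos)
    have h4 : ∀ᶠ ε : ℝ in 𝓝[>] 0, (-(ε : ℂ) * Complex.I) ∈ Uw K R := ht.eventually (hU.mem_nhds h0U)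
    obtain ⟨ε, ⟨h5, h6⟩, h7⟩ := ((h2.and h4).and self_mem_nhdsWithin).exists
    have h7' : 0 < ε := h7
    refine ⟨_, ⟨?_, h6⟩, ?_⟩
    · simp [h7']
    · rw [hFF1]
      simp only [mul_im, neg_re, neg_im, ofReal_re, ofReal_im, I_re, I_im, mul_re]
      nlinarith
  have hsign : ∀ w ∈ A, (F w).im < 0 := by
    have hcF : ContinuousOn (fun w => (F w).im) A :=
      continuous_im.comp_continuousOn (hF.diff.continuousOn.mono inter_subset_right)
    obtain ⟨w₀, hw₀, hneg₀⟩ := hneg
    intro w hw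
    by_contra hcon
    push Not at hcon
    obtain ⟨v, hv, hv0⟩ := (hAc.image _ hcF).ordConnected.out (mem_image_of_mem _ hw₀)
      (mem_image_of_mem _ hw) (⟨hneg₀.le, hcon⟩ : (0 : ℝ) ∈ Icc _ _)
    have h1 := hreal v hv.2 hv0
    have h2 : v.im < 0 := hv.1
    linarith
  have hsign' : ∀ w ∈ Uw K R, (F w).im < 0 → w.im < 0 := by
    intro w hw h
    by_contra hcon
    push Not at hcon
    rcases hcon.eq_or_lt with h1 | h1
    · have h2 : w = (w.re : ℂ) := Complex.ext rfl (by simpa using h1.symm)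
      have h3 : (F w).im = 0 := by
        apply conj_eq_iff_im.1
        rw [← hF.symm w hw, h2, conj_ofReal]
      linarith
    · have h2 := hsign _ ⟨(by simpa using h1 : ((starRingEnd ℂ) w).im < 0), Uw_conj hw⟩
      rw [hF.symm w hw, conj_im] at h2
      linarith
  -- the constant term
  set Q : ℂ → ℂ := fun w => c / F1 w with hQ
  have hF1ne : ∀ w ∈ Uw K R, F1 w ≠ 0 := by
    intro w hw h
    by_cases hw0 : w = 0
    · rw [hw0, hF10] at h; exact hc0 h
    · have h1 : F w = 0 := by rw [hFF1, h, mul_zero]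
      exact hw0 (hF.inj hw h0U (by rw [h1, hF.zero]))
  have hQd : DifferentiableAt ℂ Q 0 :=
    (differentiableAt_const _).div (hF1d.differentiableAt (hU.mem_nhds h0U)) (hF1ne 0 h0U)
  have hQ0 : Q 0 = 1 := by rw [hQ]; simp only [hF10]; exact div_self hc0
  have hslope : Tendsto (fun w => w⁻¹ * (Q w - 1)) (𝓝[≠] 0) (𝓝 (deriv Q 0)) := by
    have := hasDerivAt_iff_tendsto_slope.1 hQd.hasDerivAt
    refine this.congr fun w => ?_
    rw [slope_def_module, hQ0, sub_zero, smul_eq_mul]
  set b := deriv Q 0 with hb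
  have hbreal : b.im = 0 := by
    have hconjQ : ∀ w ∈ Uw K R, Q ((starRingEnd ℂ) w) = (starRingEnd ℂ) (Q w) := by
      intro w hw
      have hF1c : F1 ((starRingEnd ℂ) w) = (starRingEnd ℂ) (F1 w) := by
        by_cases hw0 : w = 0
        · rw [hw0, map_zero, hF10, conj_ofReal]
        · have h1 := hF.symm w hw
          rw [hFF1, hFF1 w, map_mul] at h1
          exact mul_left_cancel₀ ((map_ne_zero _).2 hw0) h1
      simp only [hQ, hF1c, map_div₀, conj_ofReal]
    have ht : Tendsto (fun x : ℝ => (x : ℂ)) (𝓝[>] 0) (𝓝[≠] 0) := by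
      refine tendsto_nhdsWithin_iff.2 ⟨?_, ?_⟩
      · have := continuous_ofReal.tendsto 0
        rw [ofReal_zero] at this
        exact this.mono_left nhdsWithin_le_nhds
      · filter_upwards [self_mem_nhdsWithin] with x hx
        have : (0 : ℝ) < x := hx
        simp only [mem_compl_iff, mem_singleton_iff, ofReal_eq_zero]
        exact this.ne'
    have h1 := hslope.comp ht
    have h2 : Tendsto (fun x : ℝ => (((x : ℂ)⁻¹ * (Q x - 1))).im) (𝓝[>] 0) (𝓝 b.im) :=
      (continuous_im.tendsto _).comp h1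
    have h3 : (fun x : ℝ => (((x : ℂ)⁻¹ * (Q x - 1))).im) =ᶠ[𝓝[>] 0] fun _ => 0 := by
      filter_upwards [self_mem_nhdsWithin] with x hx
      have hx0 : (0 : ℝ) < x := hx
      have hxU : (x : ℂ) ∈ Uw K R := (Uw_real hR hKR).2
        (by have : 0 < (2 * R)⁻¹ := by positivity
            linarith)
      have h4 := hconjQ x hxU
      rw [conj_ofReal] at h4
      have h5 : (Q x).im = 0 := conj_eq_iff_im.1 h4.symm
      rw [← ofReal_inv, mul_im, ofReal_im, sub_im, h5, one_im]
      ring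
    exact tendsto_nhds_unique h2 (tendsto_const_nhds.congr' h3.symm)
  set d : ℝ := R - b.re with hd
  have hbb : b = (b.re : ℂ) := Complex.ext rfl (by simpa using hbreal)
  set g : ℂ → ℂ := fun z => c * (F (z - R)⁻¹ + (F (z - R)⁻¹)⁻¹) + d with hg
  have hmemA : ∀ z ∈ HH \ K, (z - R)⁻¹ ∈ A := by
    intro z hz
    have : (z - R)⁻¹ ∈ (fun z : ℂ => (z - R)⁻¹) '' (HH \ K) := ⟨z, hz, rfl⟩
    rwa [← Uw_lower hK.im_nonneg] at this
  have hzR : ∀ z ∈ HH \ K, z - R ≠ 0 := by
    intro z hz h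
    have h1 : 0 < z.im := hz.1
    have := congrArg Complex.im h
    simp at this
    linarith
  have hFnorm : ∀ w ∈ Uw K R, ‖F w‖ < 1 := by
    intro w hw
    have : F w ∈ ball (0 : ℂ) 1 := hF.image ▸ mem_image_of_mem _ hw
    exact mem_ball_zero_iff.1 this
  have hFne : ∀ w ∈ A, F w ≠ 0 := by
    intro w hw h
    have := hsign w hw
    rw [h] at this
    simp at this
  refine ⟨g, hK.compact.isBounded, ?_, ?_, ?_, ?_, ?_⟩
  · exact (isOpen_lt continuous_const continuous_im).sdiff hK.compact.isClosed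
  · intro z hz
    have h1 := hmemA z hz
    have hFd : DifferentiableAt ℂ F ((z - R)⁻¹) := hF.diff.differentiableAt (hU.mem_nhds h1.2)
    have h2 : DifferentiableAt ℂ (fun z : ℂ => (z - R)⁻¹) z :=
      (differentiableAt_id.sub_const _).inv (hzR z hz)
    have h3 : DifferentiableAt ℂ (fun z : ℂ => F (z - R)⁻¹) z := hFd.comp z h2
    refine DifferentiableAt.differentiableWithinAt ?_
    exact (((h3.add (h3.inv (hFne _ h1))).const_mul _).add_const _)
  · intro z hz z' hz' h
    have h1 := hmemA z hz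
    have h1' := hmemA z' hz'
    simp only [hg] at h
    have h2 := mul_left_cancel₀ hc0 (add_right_cancel h)
    have h3 := jouk_inj (hFnorm _ h1.2) (hFnorm _ h1'.2) (hFne _ h1) (hFne _ h1') h2
    have h4 := inv_injective (hF.inj h1.2 h1'.2 h3)
    exact sub_left_injective h4
  · apply Subset.antisymm
    · rintro _ ⟨z, hz, rfl⟩
      have h1 := hmemA z hz
      have h2 := jouk_im_pos (hFnorm _ h1.2) (hsign _ h1)
      show 0 < (g z).im
      simp only [hg]
      rw [add_im, ofReal_im, add_zero, im_ofReal_mul]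
      exact mul_pos hF.pos h2
    · intro t ht
      have ht' : 0 < ((t - d) / c).im := by
        rw [div_ofReal_im, sub_im, ofReal_im, sub_zero]
        exact div_pos ht hF.pos
      obtain ⟨ζ, h1, h2, h3⟩ := jouk_surj ht'
      have hζ : ζ ∈ F '' Uw K R := by rw [hF.image]; exact mem_ball_zero_iff.2 h1
      obtain ⟨w, hw, rfl⟩ := hζ
      have hwA : w ∈ A := ⟨hsign' w hw h2, hw⟩
      rw [hA, Uw_lower hK.im_nonneg] at hwA
      obtain ⟨z, hz, rfl⟩ := hwA
      refine ⟨z, hz, ?_⟩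
      simp only [hg, h3]
      field_simp
      ring
  · have hw : Tendsto (fun z : ℂ => (z - R)⁻¹) (cobounded ℂ ⊓ 𝓟 (HH \ K)) (𝓝[≠] 0) := by
      refine tendsto_nhdsWithin_iff.2 ⟨?_, ?_⟩
      · have h1 : Tendsto (fun z : ℂ => z - R) (cobounded ℂ) (cobounded ℂ) := by
          simp [sub_eq_add_neg]
        exact (tendsto_inv₀_cobounded.comp h1).mono_left inf_le_left
      · filter_upwards [mem_inf_of_right (mem_principal_self _)] with z hz
        exact inv_ne_zero (hzR z hz)
    have h1 := hslope.comp hw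
    have hF0c : Tendsto (fun z : ℂ => F (z - R)⁻¹) (cobounded ℂ ⊓ 𝓟 (HH \ K)) (𝓝 0) := by
      have hc := (hF.diff.differentiableAt (hU.mem_nhds h0U)).continuousAt.tendsto
      rw [hF.zero] at hc
      exact hc.comp (hw.mono_right nhdsWithin_le_nhds)
    have h2 : Tendsto (fun z : ℂ => ((z - R)⁻¹)⁻¹ * (Q (z - R)⁻¹ - 1) + c * F (z - R)⁻¹ + (d - R))
        (cobounded ℂ ⊓ 𝓟 (HH \ K)) (𝓝 (b + c * 0 + (d - R))) :=
      (h1.add (hF0c.const_mul _)).add_const _
    have h3 : b + c * 0 + (d - R) = 0 := by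
      rw [hd, hbb]; push_cast; simp
    rw [h3] at h2
    refine h2.congr' ?_
    filter_upwards [mem_inf_of_right (mem_principal_self _)] with z hz
    have hzA := hmemA z hz
    have hne := hFne _ hzA
    have hne1 := hF1ne _ hzA.2
    have hzR' := hzR z hz
    have e1 : F (z - R)⁻¹ = (z - R)⁻¹ * F1 (z - R)⁻¹ := hFF1 _
    simp only [hg, hQ]
    rw [e1]
    generalize F1 (z - R)⁻¹ = y at hne1 ⊢
    generalize hx : z - R = x at hzR' ⊢
    have hz' : z = x + R := by rw [← hx]; ring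
    rw [hz']
    field_simp
    ring

/-- **(L1.B)**: existence of the hydrodynamically normalised conformal map of a hull -/
theorem exists_hydro {K : Set ℂ} (hK : IsHull K) : ∃ g, IsHydro K g := by
  obtain ⟨R, hR, hKR⟩ : ∃ R : ℝ, 0 < R ∧ K ⊆ ball 0 R := by
    obtain ⟨R, hR⟩ := hK.compact.isBounded.subset_ball_lt 0 0
    exact ⟨R, hR.1, hR.2⟩
  have hU := isOpen_Uw hK.compact hKR hR
  have h0U : (0 : ℂ) ∈ Uw K R := Or.inl rfl
  have hc := isPreconnected_Uw hK hKR hR
  obtain ⟨g, h1, h2, h3, h4, h5⟩ := P153.TOP.RMT.exists_onto_disc hU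
    ⟨⟨⟨0, h0U⟩, hc⟩, P153.TOP.hasLogOn_of_noBdd hU hc (noBdd_Uw hK hKR hR)⟩
    (Uw_ne_univ hR hKR) h0U
  obtain ⟨F, c, hF⟩ := exists_symMap hU h0U (fun w hw => Uw_conj hw) h1 h2 h3 h4 h5
  exact hydro_of_symMap hK hKR hR hF

theorem s_exists : S_exists := fun _ hK => exists_hydro hK

end Vale.Agent.P153.R2.L1
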