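import Vale.Agent.P153.R2.L1.HMax
import Vale.Agent.P153.R2.L1.HRefl
import Mathlib.Analysis.SpecialFunctions.Complex.Arg

/-!
# P153, SLE side, block L1 (second): hydrodynamically normalised maps, definition and basic facts
-/

open Complex Metric Set Filter Topology
open scoped Real ComplexConjugate

namespace Vale.Agent.P153.R2.L1

/-- The open upper half-plane. -/
def HH : Set ℂ := {z | 0 < z.im}

/-- `g` is the hydrodynamically normalised conformal map of `ℍ \ K` onto `ℍ`. -/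
structure IsHydro (K : Set ℂ) (g : ℂ → ℂ) : Prop where
  bdd : Bornology.IsBounded K
  isOpen : IsOpen (HH \ K)
  diff : DifferentiableOn ℂ g (HH \ K)
  inj : InjOn g (HH \ K)
  image : g '' (HH \ K) = HH
  lim : Tendsto (fun z => g z - z) (Bornology.cobounded ℂ ⊓ 𝓟 (HH \ K)) (𝓝 0)

theorem mem_HH {z : ℂ} : z ∈ HH ↔ 0 < z.im := Iff.rfl

theorem isOpen_HH : IsOpen HH := isOpen_lt continuous_const Complex.continuous_im

theorem convex_HH : Convex ℝ HH := convex_halfSpace_im_gt 0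

/-- The outer half-annuli are connected. -/
theorem preconn_outer (x₀ : ℝ) {M : ℝ} (hM : 0 ≤ M) :
    IsPreconnected {w : ℂ | w ∈ HH ∧ M < ‖w - x₀‖} := by
  have h1 : IsPreconnected (Ioi M ×ˢ Ioo (0 : ℝ) π) :=
    isPreconnected_Ioi.prod isPreconnected_Ioo
  have h2 : ContinuousOn (fun p : ℝ × ℝ => (x₀ : ℂ) + (p.1 : ℂ) * cexp ((p.2 : ℂ) * I))
      (Ioi M ×ˢ Ioo (0 : ℝ) π) := by
    apply Continuous.continuousOn
    fun_prop
  have h3 := h1.image _ h2
  convert h3 using 1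
  ext w
  constructor
  · rintro ⟨hw, hn⟩
    have hpos : 0 < (w - x₀).im := by simpa [HH] using hw
    refine ⟨(‖w - x₀‖, arg (w - x₀)), ⟨hn, ?_, ?_⟩, ?_⟩
    · refine lt_of_le_of_ne (arg_nonneg_iff.mpr hpos.le) ?_
      intro h
      have := (arg_eq_zero_iff.mp h.symm).2
      exact hpos.ne' this
    · exact lt_of_le_of_ne (arg_le_pi _) (by
        intro h
        rw [arg_eq_pi_iff] at h
        exact hpos.ne' h.2)
    · change (x₀ : ℂ) + (‖w - x₀‖ : ℂ) * cexp ((arg (w - x₀) : ℂ) * I) = w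
      rw [norm_mul_exp_arg_mul_I]
      ring
  · rintro ⟨⟨ρ, θ⟩, ⟨hρ, hθ⟩, rfl⟩
    have hρ' : M < ρ := hρ
    have hρ0 : 0 < ρ := lt_of_le_of_lt hM hρ'
    refine ⟨?_, ?_⟩
    · change 0 < ((x₀ : ℂ) + (ρ : ℂ) * cexp ((θ : ℂ) * I)).im
      rw [add_im, ofReal_im, zero_add, im_ofReal_mul, exp_ofReal_mul_I_im]
      exact mul_pos hρ0 (Real.sin_pos_of_pos_of_lt_pi hθ.1 hθ.2)
    · change M < ‖(x₀ : ℂ) + (ρ : ℂ) * cexp ((θ : ℂ) * I) - x₀‖
      rw [add_sub_cancel_left, norm_mul, norm_exp_ofReal_mul_I, mul_one, norm_real,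
        Real.norm_eq_abs, abs_of_pos hρ0]
      exact hρ'

/-- The inverse map. -/
noncomputable def inv (K : Set ℂ) (g : ℂ → ℂ) : ℂ → ℂ := Function.invFunOn g (HH \ K)

namespace IsHydro

variable {K : Set ℂ} {g : ℂ → ℂ}

theorem mapsTo (h : IsHydro K g) {z : ℂ} (hz : z ∈ HH \ K) : g z ∈ HH := by
  rw [← h.image]
  exact mem_image_of_mem _ hz

theorem inv_mem (h : IsHydro K g) {w : ℂ} (hw : w ∈ HH) : inv K g w ∈ HH \ K := by
  rw [← h.image] at hw
  exact Function.invFunOn_mem hw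

theorem g_inv (h : IsHydro K g) {w : ℂ} (hw : w ∈ HH) : g (inv K g w) = w := by
  rw [← h.image] at hw
  exact Function.invFunOn_eq hw

theorem inv_g (h : IsHydro K g) {z : ℂ} (hz : z ∈ HH \ K) : inv K g (g z) = z :=
  h.inj (h.inv_mem (h.mapsTo hz)) hz (h.g_inv (h.mapsTo hz))

theorem deriv_ne (h : IsHydro K g) {z : ℂ} (hz : z ∈ HH \ K) : deriv g z ≠ 0 :=
  injOn_deriv_ne_zero h.isOpen h.diff h.inj hz

theorem hasDerivAt (h : IsHydro K g) {z : ℂ} (hz : z ∈ HH \ K) :
    HasDerivAt g (deriv g z) z :=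
  ((h.diff z hz).differentiableAt (h.isOpen.mem_nhds hz)).hasDerivAt

theorem inv_hasDerivAt (h : IsHydro K g) {w : ℂ} (hw : w ∈ HH) :
    HasDerivAt (inv K g) (deriv g (inv K g w))⁻¹ w := by
  have hz := h.inv_mem hw
  have hs : HasStrictDerivAt g (deriv g (inv K g w)) (inv K g w) :=
    (h.diff.analyticAt (h.isOpen.mem_nhds hz)).hasStrictDerivAt
  have hc : ContinuousAt (inv K g) w := by
    rw [ContinuousAt, Filter.tendsto_def]
    intro s hs'
    have h6 : g '' (s ∩ (HH \ K)) ∈ 𝓝 (g (inv K g w)) := by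
      rw [← hs.map_nhds_eq (h.deriv_ne hz)]
      exact image_mem_map (inter_mem hs' (h.isOpen.mem_nhds hz))
    rw [h.g_inv hw] at h6
    filter_upwards [h6] with y hy
    obtain ⟨x, ⟨hxs, hxU⟩, rfl⟩ := hy
    rw [mem_preimage, h.inv_g hxU]
    exact hxs
  refine HasDerivAt.of_local_left_inverse hc hs.hasDerivAt (h.deriv_ne hz) ?_
  filter_upwards [isOpen_HH.mem_nhds hw] with y hy
  exact h.g_inv hy

theorem inv_diff (h : IsHydro K g) : DifferentiableOn ℂ (inv K g) HH :=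
  fun _ hw => (h.inv_hasDerivAt hw).differentiableAt.differentiableWithinAt

theorem inv_cont (h : IsHydro K g) : ContinuousOn (inv K g) HH := h.inv_diff.continuousOn

theorem inv_image (h : IsHydro K g) : inv K g '' HH = HH \ K := by
  ext z
  constructor
  · rintro ⟨w, hw, rfl⟩
    exact h.inv_mem hw
  · intro hz
    exact ⟨g z, h.mapsTo hz, h.inv_g hz⟩

theorem connected (h : IsHydro K g) : IsPreconnected (HH \ K) := by
  rw [← h.inv_image]
  exact convex_HH.isPreconnected.image _ h.inv_cont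

/-- Far away `g` is close to the identity. -/
theorem far (h : IsHydro K g) {ε : ℝ} (hε : 0 < ε) : ∃ R : ℝ, 0 < R ∧ K ⊆ ball 0 R ∧
    ∀ z ∈ HH, R ≤ ‖z‖ → ‖g z - z‖ < ε := by
  have h1 := h.lim.eventually (Metric.ball_mem_nhds (0 : ℂ) hε)
  rw [eventually_inf_principal] at h1
  obtain ⟨R₁, hR₁⟩ := (Metric.isBounded_iff_subset_ball 0).mp
    (Bornology.isBounded_def.mpr (show {z | (z ∈ HH \ K → g z - z ∈ ball (0 : ℂ) ε)}ᶜᶜ ∈
      Bornology.cobounded ℂ by rw [compl_compl]; exact h1))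
  obtain ⟨R₂, hR₂⟩ := (Metric.isBounded_iff_subset_ball (0 : ℂ)).mp h.bdd
  refine ⟨max 1 (max R₁ R₂), lt_of_lt_of_le one_pos (le_max_left _ _),
    hR₂.trans (ball_subset_ball ((le_max_right _ _).trans (le_max_right _ _))), ?_⟩
  intro z hz hzn
  have hzK : z ∉ K := by
    intro hK
    have := hR₂ hK
    rw [mem_ball_zero_iff] at this
    linarith [(le_max_right R₁ R₂).trans (le_max_right 1 (max R₁ R₂))]
  by_contra hcon
  have hmem : z ∈ {z | (z ∈ HH \ K → g z - z ∈ ball (0 : ℂ) ε)}ᶜ := by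
    intro hc
    have := hc ⟨hz, hzK⟩
    rw [mem_ball_zero_iff] at this
    exact hcon this
  have := hR₁ hmem
  rw [mem_ball_zero_iff] at this
  linarith [(le_max_left R₁ R₂).trans (le_max_right 1 (max R₁ R₂))]

/-- If `|g - x₀| ≤ M` on a half-circle around `K`, then points outside `ball x₀ M` come from
outside the half-circle. -/
theorem outer (h : IsHydro K g) {x₀ ρ M : ℝ} (hM0 : 0 ≤ M) (hK : K ⊆ ball (x₀ : ℂ) ρ)
    (hM : ∀ z ∈ HH, ‖z - x₀‖ = ρ → ‖g z - x₀‖ ≤ M) :
    ∀ w ∈ HH, M < ‖w - x₀‖ → ρ < ‖inv K g w - x₀‖ := by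
  have hO : ∀ s : Set ℂ, IsOpen s → IsOpen {w | w ∈ HH ∧ inv K g w ∈ s} :=
    fun s hs => h.inv_cont.isOpen_inter_preimage isOpen_HH hs
  have hu := hO {z | ρ < ‖z - x₀‖} (isOpen_lt continuous_const (by fun_prop))
  have hv := hO {z | ‖z - x₀‖ < ρ} (isOpen_lt (by fun_prop) continuous_const)
  have hsub := (preconn_outer x₀ hM0).subset_left_of_subset_union hu hv ?_ ?_ ?_
  · intro w hw hn
    exact (hsub ⟨hw, hn⟩).2
  · rw [Set.disjoint_left]
    intro w h1 h2
    have h3 : ρ < ‖inv K g w - x₀‖ := h1.2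
    have h4 : ‖inv K g w - x₀‖ < ρ := h2.2
    exact lt_asymm h3 h4
  · rintro w ⟨hw, hn⟩
    rcases lt_trichotomy ‖inv K g w - x₀‖ ρ with h1 | h1 | h1
    · exact Or.inr ⟨hw, h1⟩
    · exfalso
      have := hM _ (h.inv_mem hw).1 h1
      rw [h.g_inv hw] at this
      linarith
    · exact Or.inl ⟨hw, h1⟩
  · obtain ⟨R, hR, hKR, hfar⟩ := h.far one_pos
    set t : ℝ := max R (max ρ 0 + M + 2) + |x₀| with ht
    have ht1 : R ≤ t - |x₀| := by rw [ht]; simp
    have ht2 : max ρ 0 + M + 2 ≤ t - |x₀| := by rw [ht]; simp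
    have hρ0 : 0 ≤ max ρ 0 := le_max_right _ _
    have hρ1 : ρ ≤ max ρ 0 := le_max_left _ _
    have hx0 := abs_nonneg x₀
    have htpos : 0 < t := by linarith
    set z : ℂ := x₀ + t * I with hz
    have hzH : z ∈ HH := by simp [hz, HH, htpos]
    have hzn : R ≤ ‖z‖ := by
      have : |z.im| ≤ ‖z‖ := Complex.abs_im_le_norm z
      have e : z.im = t := by simp [hz]
      rw [e, abs_of_pos htpos] at this
      linarith
    have hzx : ‖z - x₀‖ = t := by
      simp [hz, abs_of_pos htpos]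
    have hzK : z ∉ K := by
      intro hc
      have := hK hc
      rw [mem_ball, dist_eq_norm, hzx] at this
      linarith
    have hg := hfar z hzH hzn
    have hgz : g z ∈ HH := h.mapsTo ⟨hzH, hzK⟩
    refine ⟨g z, ⟨hgz, ?_⟩, hgz, ?_⟩
    · have : ‖z - x₀‖ ≤ ‖g z - x₀‖ + ‖g z - z‖ := by
        calc ‖z - x₀‖ = ‖(g z - x₀) - (g z - z)‖ := by ring_nf
          _ ≤ _ := norm_sub_le _ _
      rw [hzx] at this
      change M < ‖g z - x₀‖
      linarith
    · change inv K g (g z) ∈ {z : ℂ | ρ < ‖z - x₀‖}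
      rw [h.inv_g ⟨hzH, hzK⟩]
      change ρ < ‖z - x₀‖
      rw [hzx]
      linarith

/-- The corresponding bound inside the half-circle. -/
theorem inner (h : IsHydro K g) {x₀ ρ M : ℝ} (hM0 : 0 ≤ M) (hK : K ⊆ ball (x₀ : ℂ) ρ)
    (hM : ∀ z ∈ HH, ‖z - x₀‖ = ρ → ‖g z - x₀‖ ≤ M) :
    ∀ z ∈ HH \ K, ‖z - x₀‖ ≤ ρ → ‖g z - x₀‖ ≤ M := by
  intro z hz hn
  by_contra hcon
  push Not at hcon
  have := h.outer hM0 hK hM (g z) (h.mapsTo hz) hcon
  rw [h.inv_g hz] at this
  linarith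

/-- `g` is bounded on bounded sets. -/
theorem bdd_of_bdd (h : IsHydro K g) : ∃ R₀ : ℝ, 0 < R₀ ∧ ∀ R, R₀ ≤ R →
    K ⊆ ball 0 R ∧ (∀ z ∈ HH, R ≤ ‖z‖ → ‖g z - z‖ < 1) ∧
    (∀ z ∈ HH \ K, ‖z‖ ≤ R → ‖g z‖ ≤ R + 1) := by
  obtain ⟨R₀, hR₀, hKR, hfar⟩ := h.far one_pos
  refine ⟨R₀, hR₀, fun R hR => ⟨hKR.trans (ball_subset_ball hR),
    fun z hz hn => hfar z hz (hR.trans hn), ?_⟩⟩
  intro z hz hn
  have := h.inner (x₀ := 0) (ρ := R) (M := R + 1) (by linarith)
    (by simpa using hKR.trans (ball_subset_ball hR)) (by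
      intro y hy hyn
      simp only [ofReal_zero, sub_zero] at hyn ⊢
      have h1 := hfar y hy (by rw [hyn]; exact hR)
      calc ‖g y‖ = ‖(g y - y) + y‖ := by ring_nf
        _ ≤ ‖g y - y‖ + ‖y‖ := norm_add_le _ _
        _ ≤ R + 1 := by linarith) z hz (by simpa using hn)
  simpa using this

/-- Sets away from the boundary in the image have compact preimage. -/
theorem isCompact_preimage (h : IsHydro K g) {ε M : ℝ} (hε : 0 < ε) :
    IsCompact {z | z ∈ HH \ K ∧ ε ≤ (g z).im ∧ ‖g z‖ ≤ M} := by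
  have h1 : IsCompact {w : ℂ | ε ≤ w.im ∧ ‖w‖ ≤ M} := by
    refine Metric.isCompact_of_isClosed_isBounded ?_ ?_
    · exact (isClosed_le continuous_const Complex.continuous_im).inter
        (isClosed_le continuous_norm continuous_const)
    · refine (Metric.isBounded_closedBall (x := (0 : ℂ)) (r := M)).subset ?_
      intro w hw
      simpa using hw.2
  have hsub : {w : ℂ | ε ≤ w.im ∧ ‖w‖ ≤ M} ⊆ HH := fun w hw => lt_of_lt_of_le hε hw.1
  have h2 := h1.image_of_continuousOn (h.inv_cont.mono hsub)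
  convert h2 using 1
  ext z
  constructor
  · rintro ⟨hz, h3, h4⟩
    exact ⟨g z, ⟨h3, h4⟩, h.inv_g hz⟩
  · rintro ⟨w, ⟨h3, h4⟩, rfl⟩
    have hw : w ∈ HH := hsub ⟨h3, h4⟩
    refine ⟨h.inv_mem hw, ?_⟩
    rw [h.g_inv hw]
    exact ⟨h3, h4⟩

/-- `Im g ≤ Im z`. -/
theorem im_le (h : IsHydro K g) {z : ℂ} (hz : z ∈ HH \ K) : (g z).im ≤ z.im := by
  have hd : DifferentiableOn ℂ (fun z => cexp (-I * (g z - z))) (HH \ K) :=
    ((h.diff.sub differentiableOn_id).const_mul (-I)).cexp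
  have hn : ∀ z, ‖cexp (-I * (g z - z))‖ = Real.exp ((g z).im - z.im) := by
    intro z
    rw [norm_exp]
    congr 1
    simp
  have hmax := maxP h.isOpen hd (M := 1) (by
    intro ε hε
    set η : ℝ := Real.log (1 + ε) with hη
    have hη0 : 0 < η := Real.log_pos (by linarith)
    have hηe : Real.exp η = 1 + ε := Real.exp_log (by linarith)
    obtain ⟨R₁, hR₁, hKR, hfar⟩ := h.far hη0
    obtain ⟨R₂, hR₂, hb⟩ := h.bdd_of_bdd
    set R := max R₁ R₂ with hR
    refine ⟨_, h.isCompact_preimage (ε := η) (M := R + 1) hη0, fun z hz => hz.1, ?_⟩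
    intro z hz hzL
    rw [hn, ← hηe]
    apply Real.exp_le_exp.mpr
    by_cases h1 : (g z).im < η
    · have : 0 < z.im := hz.1
      linarith
    · have h2 : R + 1 < ‖g z‖ := by
        by_contra hc
        exact hzL ⟨hz, not_lt.mp h1, not_lt.mp hc⟩
      have h3 : R < ‖z‖ := by
        by_contra hc
        have := (hb R (le_max_right _ _)).2.2 z hz (not_lt.mp hc)
        linarith
      have h4 := hfar z hz.1 ((le_max_left _ _).trans h3.le)
      have h5 : |(g z - z).im| ≤ ‖g z - z‖ := Complex.abs_im_le_norm _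
      rw [sub_im] at h5
      linarith [le_abs_self ((g z).im - z.im)])
  have := hmax z hz
  rw [hn] at this
  have h2 := Real.exp_le_one_iff.mp this
  linarith

/-- If `K` has height at most `b`, then `Im z - Im g ≤ b`. -/
theorem im_sub_le (h : IsHydro K g) {b : ℝ} (hb0 : 0 ≤ b) (hb : ∀ z ∈ K, z.im ≤ b) {z : ℂ}
    (hz : z ∈ HH \ K) : z.im - (g z).im ≤ b := by
  have hd : DifferentiableOn ℂ (fun z => cexp (I * (g z - z))) (HH \ K) :=
    ((h.diff.sub differentiableOn_id).const_mul I).cexp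
  have hn : ∀ z, ‖cexp (I * (g z - z))‖ = Real.exp (z.im - (g z).im) := by
    intro z
    rw [norm_exp]
    congr 1
    simp
  have hmax := maxP h.isOpen hd (M := Real.exp b) (by
    intro ε hε
    -- choose η with exp (b + η) ≤ exp b + ε
    have hcont : ContinuousAt (fun η : ℝ => Real.exp (b + η)) 0 := by fun_prop
    have hev : ∀ᶠ η in 𝓝[>] (0 : ℝ), Real.exp (b + η) < Real.exp b + ε := by
      have : Real.exp (b + 0) < Real.exp b + ε := by rw [add_zero]; linarith
      exact (hcont.eventually (gt_mem_nhds this)).filter_mono nhdsWithin_le_nhds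
    obtain ⟨η, hη1, hη0⟩ := (hev.and self_mem_nhdsWithin).exists
    have hη0' : 0 < η := hη0
    obtain ⟨R, hR, hKR, hfar⟩ := h.far hη0'
    refine ⟨{z | b + η ≤ z.im ∧ ‖z‖ ≤ R}, ?_, ?_, ?_⟩
    · refine Metric.isCompact_of_isClosed_isBounded ?_ ?_
      · exact (isClosed_le continuous_const Complex.continuous_im).inter
          (isClosed_le continuous_norm continuous_const)
      · refine (Metric.isBounded_closedBall (x := (0 : ℂ)) (r := R)).subset ?_
        intro w hw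
        simpa using hw.2
    · rintro w ⟨hw1, hw2⟩
      refine ⟨?_, fun hc => ?_⟩
      · change 0 < w.im
        linarith
      · have := hb w hc
        linarith
    · intro z hz hzL
      rw [hn]
      refine le_trans (Real.exp_le_exp.mpr ?_) hη1.le
      have hgp : 0 < (g z).im := h.mapsTo hz
      by_cases h1 : b + η ≤ z.im
      · have h2 : R < ‖z‖ := by
          by_contra hc
          exact hzL ⟨h1, not_lt.mp hc⟩
        have h4 := hfar z hz.1 h2.le
        have h5 : |(g z - z).im| ≤ ‖g z - z‖ := Complex.abs_im_le_norm _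
        rw [sub_im] at h5
        linarith [neg_abs_le ((g z).im - z.im)]
      · push Not at h1
        linarith)
  have := hmax z hz
  rw [hn] at this
  exact Real.exp_le_exp.mp this

end IsHydro

end Vale.Agent.P153.R2.L1
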