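import Vale.Agent.P153.R2.TOP.Log

/-!
# P153, block L1.A: continuous logarithms on plane domains without holes

`hasLogOn_of_noBdd` : if `U` is open and connected in the plane and every point of the complement
lies in an unbounded connected subset of the complement, then every nonvanishing continuous
function on `U` has a continuous logarithm.
-/

open Set Topology

namespace P153.TOP

/-! ### Closed subsets of an interval and of a circle minus a point -/

/-- A function whose oscillation on `S` is smaller than its modulus has a logarithm on `S`. -/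
theorem logOn_of_osc {X : Type*} [TopologicalSpace X] {S : Set X} {f : X → ℂ}
    (hf : ContinuousOn f S) {m : ℝ} (hm : 0 < m) (hfm : ∀ x ∈ S, m ≤ ‖f x‖)
    (h : ∀ x ∈ S, ∀ y ∈ S, dist (f x) (f y) < m) : LogOn S f := by
  rcases S.eq_empty_or_nonempty with rfl | ⟨x₀, hx₀⟩
  · exact logOn_empty
  have h0 : f x₀ ≠ 0 := norm_pos_iff.1 (hm.trans_le (hfm x₀ hx₀))
  have h1 : LogOn S fun x => f x / f x₀ := by
    refine logOn_of_norm_sub_one_lt (hf.div_const _) fun x hx => ?_
    have e : f x / f x₀ - 1 = (f x - f x₀) / f x₀ := by field_simp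
    rw [e, norm_div, div_lt_one (norm_pos_iff.2 h0), ← dist_eq_norm]
    exact (h x hx x₀ hx₀).trans_le (hfm x₀ hx₀)
  refine (h1.mul (logOn_const h0)).congr fun x _ => ?_
  field_simp

theorem hasLogOn_subset_Icc {a b : ℝ} {K : Set ℝ} (hK : IsClosed K) (hKab : K ⊆ Icc a b) :
    HasLogOn K := by
  intro f hf hf0
  have hKc : IsCompact K := isCompact_Icc.of_isClosed_subset hK hKab
  rcases K.eq_empty_or_nonempty with rfl | hne
  · exact logOn_empty
  obtain ⟨x₁, hx₁, hmin⟩ := hKc.exists_isMinOn hne hf.norm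
  set m := ‖f x₁‖ with hm
  have hm0 : 0 < m := norm_pos_iff.2 (hf0 x₁ hx₁)
  have hfm : ∀ x ∈ K, m ≤ ‖f x‖ := fun x hx => hmin hx
  obtain ⟨δ, hδ, hδ'⟩ := Metric.uniformContinuousOn_iff.1
    (hKc.uniformContinuousOn_of_continuous hf) m hm0
  have piece : ∀ s t : ℝ, t < s + δ → LogOn (K ∩ Icc s t) f := by
    intro s t hst
    refine logOn_of_osc (hf.mono inter_subset_left) hm0 (fun x hx => hfm x hx.1) ?_
    intro x hx y hy
    refine hδ' x hx.1 y hy.1 ?_
    rw [Real.dist_eq, abs_lt]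
    have := hx.2.1
    have := hx.2.2
    have := hy.2.1
    have := hy.2.2
    constructor <;> linarith
  have key : ∀ k : ℕ, LogOn (K ∩ Icc a (a + k * (δ / 2))) f := by
    intro k
    induction k with
    | zero => exact piece _ _ (by simp only [Nat.cast_zero, zero_mul, add_zero]; linarith)
    | succ k ih =>
      have h1 := piece (a + k * (δ / 2)) (a + (k + 1 : ℕ) * (δ / 2)) (by
        push_cast
        nlinarith)
      have hcl1 : IsClosed (K ∩ Icc a (a + k * (δ / 2))) := hK.inter isClosed_Icc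
      have hcl2 : IsClosed (K ∩ Icc (a + k * (δ / 2)) (a + (k + 1 : ℕ) * (δ / 2))) :=
        hK.inter isClosed_Icc
      have hpc : IsPreconnected ((K ∩ Icc a (a + k * (δ / 2))) ∩
          (K ∩ Icc (a + k * (δ / 2)) (a + (k + 1 : ℕ) * (δ / 2)))) := by
        refine Set.Subsingleton.isPreconnected fun x hx y hy => ?_
        have e1 : x = a + k * (δ / 2) := le_antisymm hx.1.2.2 hx.2.2.1
        have e2 : y = a + k * (δ / 2) := le_antisymm hy.1.2.2 hy.2.2.1
        rw [e1, e2]
      refine (LogOn.union hcl1 hcl2 hpc ih h1).mono ?_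
      rintro x ⟨hxK, hx1, hx2⟩
      rcases le_total x (a + k * (δ / 2)) with h | h
      · exact Or.inl ⟨hxK, hx1, h⟩
      · exact Or.inr ⟨hxK, h, hx2⟩
  obtain ⟨k, hk⟩ := exists_nat_ge ((b - a) / (δ / 2))
  refine (key k).mono fun x hx => ⟨hx, (hKab hx).1, (hKab hx).2.trans ?_⟩
  rw [div_le_iff₀ (by positivity)] at hk
  linarith

theorem hasLogOn_circle_subset {p : ℂ} {r : ℝ} (hr : 0 < r) {A : Set ℂ} (hA : IsClosed A)
    (hAs : A ⊆ Metric.sphere p r) {w : ℂ} (hw : w ∈ Metric.sphere p r) (hwA : w ∉ A) :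
    HasLogOn A := by
  have hpi : (0 : ℝ) < 2 * Real.pi := by positivity
  have hrange : ∀ z ∈ Metric.sphere p r, ∃ t, circleMap p r t = z := by
    intro z hz
    have : z ∈ range (circleMap p r) := by
      rw [range_circleMap, abs_of_pos hr]
      exact hz
    exact this
  obtain ⟨θ, hθ⟩ := hrange w hw
  set K : Set ℝ := Icc θ (θ + 2 * Real.pi) ∩ (circleMap p r) ⁻¹' A with hK
  have hKcl : IsClosed K := isClosed_Icc.inter (hA.preimage (continuous_circleMap p r))
  have hKs : K ⊆ Ioo θ (θ + 2 * Real.pi) := by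
    rintro t ⟨⟨h1, h2⟩, h3⟩
    refine ⟨lt_of_le_of_ne h1 ?_, lt_of_le_of_ne h2 ?_⟩
    · rintro rfl
      exact hwA (hθ ▸ h3)
    · rintro rfl
      rw [mem_preimage, periodic_circleMap p r θ, hθ] at h3
      exact hwA h3
  have himg : circleMap p r '' K = A := by
    apply Subset.antisymm
    · rintro _ ⟨t, ht, rfl⟩
      exact ht.2
    · intro z hz
      have h1 : z ∈ range (circleMap p r) := hrange z (hAs hz)
      rw [← (periodic_circleMap p r).image_Ioc hpi θ] at h1
      obtain ⟨t, ht, rfl⟩ := h1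
      exact ⟨t, ⟨Ioc_subset_Icc_self ht, hz⟩, rfl⟩
  rw [← himg]
  refine (hasLogOn_subset_Icc hKcl inter_subset_left).image_of_isCompact
    (isCompact_Icc.of_isClosed_subset hKcl inter_subset_left)
    (continuous_circleMap p r).continuousOn ?_
  have h1 : InjOn (circleMap p r) (uIoc θ (θ + 2 * Real.pi)) := by
    apply injOn_circleMap_of_abs_sub_le hr.ne'
    rw [show θ - (θ + 2 * Real.pi) = -(2 * Real.pi) by ring, abs_neg, abs_of_pos hpi]
  refine h1.mono fun t ht => ?_
  rw [uIoc_of_le (by linarith)]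
  exact Ioo_subset_Ioc_self (hKs ht)

/-! ### Removing discs from a big disc -/

/-- The closed disc of radius `R` minus the open discs of radius `r` with centres in `P`. -/
def XX (R r : ℝ) (P : List ℂ) : Set ℂ := {z | ‖z‖ ≤ R ∧ ∀ p ∈ P, r ≤ dist z p}

/-- Good lists of centres: every disc meets the outside or a disc which was removed before. -/
inductive Good (R r : ℝ) (U : Set ℂ) : List ℂ → Prop
  | nil : Good R r U []
  | cons (p : ℂ) (P : List ℂ) : Good R r U P → p ∉ U →
      ((∃ q ∈ P, q ≠ p ∧ dist p q < 2 * r) ∨ R < ‖p‖ + r) → Good R r U (p :: P)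

theorem isClosed_XX (R r : ℝ) (P : List ℂ) : IsClosed (XX R r P) := by
  have : XX R r P = Metric.closedBall 0 R ∩ ⋂ p ∈ P, (Metric.ball p r)ᶜ := by
    ext z
    simp [XX]
  rw [this]
  refine Metric.isClosed_closedBall.inter (isClosed_biInter fun p _ => ?_)
  exact Metric.isOpen_ball.isClosed_compl

theorem Good.notMem {R r : ℝ} {U : Set ℂ} {P : List ℂ} (h : Good R r U P) :
    ∀ p ∈ P, p ∉ U := by
  induction h with
  | nil => simp
  | cons p P _ hp _ ih =>
    intro q hq
    rcases List.mem_cons.1 hq with rfl | hq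
    · exact hp
    · exact ih q hq

theorem hasLogOn_XX {R r : ℝ} (hr : 0 < r) {U : Set ℂ} {P : List ℂ} (h : Good R r U P) :
    HasLogOn (XX R r P) := by
  classical
  induction h with
  | nil =>
    have : XX R r [] = Metric.closedBall 0 R := by
      ext z
      simp [XX]
    rw [this]
    exact hasLogOn_of_convex (convex_closedBall 0 R)
  | cons p P hP hp hgood ih =>
    intro f hf hf0
    have hXcl := isClosed_XX R r P
    set A : Set ℂ := Metric.sphere p r ∩ XX R r P with hA
    have hAcl : IsClosed A := Metric.isClosed_sphere.inter hXcl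
    have hXc : ∀ z, z ∈ XX R r (p :: P) ↔ z ∈ XX R r P ∧ r ≤ dist z p := by
      intro z
      constructor
      · rintro ⟨h1, h2⟩
        exact ⟨⟨h1, fun q hq => h2 q (List.mem_cons_of_mem _ hq)⟩, h2 p (List.mem_cons_self)⟩
      · rintro ⟨⟨h1, h2⟩, h3⟩
        refine ⟨h1, fun q hq => ?_⟩
        rcases List.mem_cons.1 hq with rfl | hq
        · exact h3
        · exact h2 q hq
    have hAX : A ⊆ XX R r (p :: P) := by
      rintro z ⟨h1, h2⟩
      exact (hXc z).2 ⟨h2, (Metric.mem_sphere.1 h1).ge⟩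
    obtain ⟨w, hw, hwA⟩ : ∃ w ∈ Metric.sphere p r, w ∉ A := by
      rcases hgood with ⟨q, hq, hqp, hd⟩ | hR
      · have hne : q - p ≠ 0 := sub_ne_zero.2 hqp
        have hn0 : 0 < ‖q - p‖ := norm_pos_iff.2 hne
        have hd' : ‖q - p‖ < 2 * r := by rwa [dist_comm, dist_eq_norm] at hd
        have hnc : (‖q - p‖ : ℂ) ≠ 0 := by exact_mod_cast hn0.ne'
        refine ⟨p + (r / ‖q - p‖ : ℝ) * (q - p), ?_, fun hmem => ?_⟩
        · rw [Metric.mem_sphere, dist_eq_norm, add_sub_cancel_left, norm_mul, Complex.norm_real,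
            Real.norm_eq_abs, abs_of_pos (by positivity)]
          field_simp
        · have h1 := hmem.2.2 q hq
          have e : p + (r / ‖q - p‖ : ℝ) * (q - p) - q =
              ((r / ‖q - p‖ - 1 : ℝ) : ℂ) * (q - p) := by
            push_cast
            ring
          rw [dist_eq_norm, e, norm_mul, Complex.norm_real, Real.norm_eq_abs] at h1
          have h2 : |r / ‖q - p‖ - 1| * ‖q - p‖ = |r - ‖q - p‖| := by
            rw [← abs_of_pos hn0, ← abs_mul, abs_of_pos hn0]
            congr 1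
            field_simp
          rw [h2] at h1
          have h3 : |r - ‖q - p‖| < r := by
            rw [abs_lt]
            constructor <;> linarith
          linarith
      · rcases eq_or_ne p 0 with rfl | hp0
        · refine ⟨r, ?_, fun hmem => ?_⟩
          · rw [Metric.mem_sphere, dist_zero_right, Complex.norm_real, Real.norm_eq_abs,
              abs_of_pos hr]
          · have h1 := hmem.2.1
            rw [Complex.norm_real, Real.norm_eq_abs, abs_of_pos hr] at h1
            rw [norm_zero] at hR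
            linarith
        · have hn0 : 0 < ‖p‖ := norm_pos_iff.2 hp0
          refine ⟨p + (r / ‖p‖ : ℝ) * p, ?_, fun hmem => ?_⟩
          · rw [Metric.mem_sphere, dist_eq_norm, add_sub_cancel_left, norm_mul, Complex.norm_real,
              Real.norm_eq_abs, abs_of_pos (by positivity)]
            field_simp
          · have h1 := hmem.2.1
            have e : p + (r / ‖p‖ : ℝ) * p = ((1 + r / ‖p‖ : ℝ) : ℂ) * p := by
              push_cast
              ring
            rw [e, norm_mul, Complex.norm_real, Real.norm_eq_abs,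
              abs_of_pos (by positivity)] at h1
            have h2 : (1 + r / ‖p‖) * ‖p‖ = ‖p‖ + r := by field_simp
            rw [h2] at h1
            linarith
    obtain ⟨F, hF, hF'⟩ := hasLogOn_circle_subset hr hAcl inter_subset_left hw hwA f
      (hf.mono hAX) (fun z hz => hf0 z (hAX hz))
    obtain ⟨F₁, hF₁⟩ := ContinuousMap.exists_restrict_eq hAcl
      (⟨A.domRestrict F, continuousOn_iff_continuous_domRestrict.1 hF⟩ : C(A, ℂ))
    have hF₁' : ∀ z ∈ A, F₁ z = F z := by
      intro z hz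
      exact DFunLike.congr_fun hF₁ ⟨z, hz⟩
    set G : ℂ → ℂ := fun z => if r ≤ dist z p then f z else Complex.exp (F₁ z) with hG
    have hGin : ∀ z ∈ XX R r (p :: P), G z = f z := fun z hz => if_pos ((hXc z).1 hz).2
    have hGball : ∀ z ∈ Metric.closedBall p r ∩ XX R r P, G z = Complex.exp (F₁ z) := by
      rintro z ⟨hz1, hz2⟩
      by_cases hd : r ≤ dist z p
      · have hzA : z ∈ A := ⟨Metric.mem_sphere.2 (le_antisymm hz1 hd), hz2⟩
        simp only [hG]
        rw [if_pos hd, hF₁' z hzA, hF' z hzA]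
      · exact if_neg hd
    have hcov : XX R r P = XX R r (p :: P) ∪ (Metric.closedBall p r ∩ XX R r P) := by
      ext z
      constructor
      · intro hz
        by_cases hd : r ≤ dist z p
        · exact Or.inl ((hXc z).2 ⟨hz, hd⟩)
        · exact Or.inr ⟨(not_le.1 hd).le, hz⟩
      · rintro (hz | hz)
        · exact ((hXc z).1 hz).1
        · exact hz.2
    have hGc : ContinuousOn G (XX R r P) := by
      rw [hcov]
      refine ContinuousOn.union_of_isClosed ?_ ?_ (isClosed_XX R r (p :: P))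
        (Metric.isClosed_closedBall.inter hXcl)
      · exact hf.congr hGin
      · exact (Complex.continuous_exp.comp F₁.continuous).continuousOn.congr hGball
    have hG0 : ∀ z ∈ XX R r P, G z ≠ 0 := by
      intro z hz
      rw [hcov] at hz
      rcases hz with hz | hz
      · rw [hGin z hz]
        exact hf0 z hz
      · rw [hGball z hz]
        exact Complex.exp_ne_zero _
    exact ((ih G hGc hG0).mono fun z hz => ((hXc z).1 hz).1).congr fun z hz => (hGin z hz).symm

/-! ### Good coverings of the complement -/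

/-- The hypothesis on the complement: no bounded components. -/
def NoBdd (U : Set ℂ) : Prop :=
  ∀ z ∉ U, ∃ C : Set ℂ, IsPreconnected C ∧ z ∈ C ∧ C ⊆ Uᶜ ∧ ¬ Bornology.IsBounded C

theorem exists_good_mem {R r : ℝ} (hr : 0 < r) {U : Set ℂ} (hb : NoBdd U) {z : ℂ} (hz : z ∉ U)
    {P : List ℂ} (hP : Good R r U P) : ∃ P', Good R r U P' ∧ (∀ x ∈ P, x ∈ P') ∧ z ∈ P' := by
  obtain ⟨C, hC, hzC, hCU, hCb⟩ := hb z hz
  let Q : ℂ → Prop := fun c => ∀ P, Good R r U P → ∃ P', Good R r U P' ∧ (∀ x ∈ P, x ∈ P') ∧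
    c ∈ P'
  have htrans : ∀ c ∈ C, ∀ c' ∈ C, dist c c' < r → Q c → Q c' := by
    intro c _ c' hc' hd hQ P hP
    obtain ⟨P', h1, h2, h3⟩ := hQ P hP
    by_cases he : c = c'
    · exact ⟨P', h1, h2, he ▸ h3⟩
    · refine ⟨c' :: P', Good.cons c' P' h1 (hCU hc') (Or.inl ⟨c, h3, he, ?_⟩), ?_, ?_⟩
      · rw [dist_comm]
        linarith
      · exact fun x hx => List.mem_cons_of_mem _ (h2 x hx)
      · exact List.mem_cons_self
  obtain ⟨c₀, hc₀, hc₀R⟩ : ∃ c ∈ C, R < ‖c‖ := by
    by_contra hcon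
    push Not at hcon
    apply hCb
    refine (Metric.isBounded_closedBall (x := (0 : ℂ)) (r := R)).subset fun c hc => ?_
    rw [mem_closedBall_zero_iff]
    exact hcon c hc
  have hQ0 : Q c₀ := by
    intro P hP
    by_cases hmem : c₀ ∈ P
    · exact ⟨P, hP, fun x hx => hx, hmem⟩
    · exact ⟨c₀ :: P, Good.cons c₀ P hP (hCU hc₀) (Or.inr (by linarith)),
        fun x hx => List.mem_cons_of_mem _ hx, List.mem_cons_self⟩
  have hQz : Q z := by
    by_contra hQz
    let A1 : Set ℂ := ⋃ c ∈ {c | c ∈ C ∧ Q c}, Metric.ball c (r / 2)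
    let A2 : Set ℂ := ⋃ c ∈ {c | c ∈ C ∧ ¬ Q c}, Metric.ball c (r / 2)
    have h1 : IsOpen A1 := isOpen_biUnion fun c _ => Metric.isOpen_ball
    have h2 : IsOpen A2 := isOpen_biUnion fun c _ => Metric.isOpen_ball
    have hd : Disjoint A1 A2 := by
      rw [Set.disjoint_left]
      intro x hx1 hx2
      simp only [A1, A2, mem_iUnion] at hx1 hx2
      obtain ⟨c, ⟨hc, hQc⟩, hxc⟩ := hx1
      obtain ⟨c', ⟨hc', hQc'⟩, hxc'⟩ := hx2
      refine hQc' (htrans c hc c' hc' ?_ hQc)
      rw [Metric.mem_ball] at hxc hxc'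
      have := dist_triangle c x c'
      rw [dist_comm c x] at this
      linarith
    have hcov : C ⊆ A1 ∪ A2 := by
      intro c hc
      by_cases hQc : Q c
      · exact Or.inl (mem_biUnion (show c ∈ {c | c ∈ C ∧ Q c} from ⟨hc, hQc⟩)
          (Metric.mem_ball_self (by positivity)))
      · exact Or.inr (mem_biUnion (show c ∈ {c | c ∈ C ∧ ¬ Q c} from ⟨hc, hQc⟩)
          (Metric.mem_ball_self (by positivity)))
    have h3 := hC.subset_left_of_subset_union h1 h2 hd hcov ⟨c₀, hc₀, mem_biUnion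
      (show c₀ ∈ {c | c ∈ C ∧ Q c} from ⟨hc₀, hQ0⟩) (Metric.mem_ball_self (by positivity))⟩ hzC
    refine (Set.disjoint_left.1 hd) h3 (mem_biUnion
      (show z ∈ {c | c ∈ C ∧ ¬ Q c} from ⟨hzC, hQz⟩) (Metric.mem_ball_self (by positivity)))
  exact hQz P hP

theorem exists_good_cover {R r : ℝ} (hr : 0 < r) {U : Set ℂ} (hU : IsOpen U) (hb : NoBdd U) :
    ∃ P, Good R r U P ∧ ∀ z, z ∉ U → ‖z‖ ≤ R → ∃ p ∈ P, dist z p < r := by
  have hK : IsCompact (Uᶜ ∩ Metric.closedBall 0 R) :=
    (isCompact_closedBall 0 R).inter_left hU.isClosed_compl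
  obtain ⟨t, htK, htf, ht⟩ := hK.finite_cover_balls hr
  have key : ∀ s : Finset ℂ, (∀ x ∈ s, x ∉ U) → ∃ P, Good R r U P ∧ ∀ x ∈ s, x ∈ P := by
    classical
    intro s
    induction s using Finset.induction_on with
    | empty => exact fun _ => ⟨[], Good.nil, by simp⟩
    | insert a s _ ih =>
      intro hs
      obtain ⟨P, hP, hPs⟩ := ih fun x hx => hs x (Finset.mem_insert_of_mem hx)
      obtain ⟨P', h1, h2, h3⟩ := exists_good_mem hr hb (hs a (Finset.mem_insert_self a s)) hP
      refine ⟨P', h1, fun x hx => ?_⟩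
      rcases Finset.mem_insert.1 hx with rfl | hx
      · exact h3
      · exact h2 x (hPs x hx)
  obtain ⟨P, hP, hPs⟩ := key htf.toFinset fun x hx => (htK (htf.mem_toFinset.1 hx)).1
  refine ⟨P, hP, fun z hz hzR => ?_⟩
  have h1 := ht ⟨hz, by rwa [mem_closedBall_zero_iff]⟩
  simp only [mem_iUnion] at h1
  obtain ⟨x, hx, hxz⟩ := h1
  exact ⟨x, hPs x (htf.mem_toFinset.2 hx), hxz⟩

/-- Logarithms on compact subsets. -/
theorem logOn_compact_of_noBdd {U : Set ℂ} (hU : IsOpen U) (hb : NoBdd U) {f : ℂ → ℂ}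
    (hf : ContinuousOn f U) (hf0 : ∀ z ∈ U, f z ≠ 0) {Q : Set ℂ} (hQ : IsCompact Q)
    (hQU : Q ⊆ U) : LogOn Q f := by
  obtain ⟨r, hr, hr'⟩ := hQ.exists_cthickening_subset_open hU hQU
  obtain ⟨R, hR⟩ := hQ.isBounded.subset_closedBall (0 : ℂ)
  obtain ⟨P, hP, hcov⟩ := exists_good_cover (R := R) hr hU hb
  have hXU : XX R r P ⊆ U := by
    rintro z ⟨hz1, hz2⟩
    by_contra hz
    obtain ⟨p, hp, hd⟩ := hcov z hz hz1
    exact absurd (hz2 p hp) (not_le.2 hd)
  refine (hasLogOn_XX hr hP f (hf.mono hXU) fun z hz => hf0 z (hXU hz)).mono fun z hz => ?_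
  refine ⟨mem_closedBall_zero_iff.1 (hR hz), fun p hp => ?_⟩
  by_contra hcon
  refine hP.notMem p hp (hr' ?_)
  refine Metric.mem_cthickening_of_dist_le p z r Q hz ?_
  rw [dist_comm]
  exact (not_le.1 hcon).le

/-- Gluing logarithms on compact subsets to a logarithm on a connected open set. -/
theorem logOn_of_compacts {U : Set ℂ} (hU : IsOpen U) (hc : IsPreconnected U) {f : ℂ → ℂ}
    (h : ∀ Q ⊆ U, IsCompact Q → LogOn Q f) : LogOn U f := by
  classical
  rcases U.eq_empty_or_nonempty with rfl | ⟨z₀, hz₀⟩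
  · exact logOn_empty
  have hpc : IsPathConnected U := hU.isConnected_iff_isPathConnected.1 ⟨⟨z₀, hz₀⟩, hc⟩
  have hf0 : f z₀ ≠ 0 := (h {z₀} (singleton_subset_iff.2 hz₀) isCompact_singleton).ne_zero
    (mem_singleton z₀)
  set l := Complex.log (f z₀) with hl
  -- normalised logarithms
  have hnorm : ∀ Q ⊆ U, IsCompact Q → z₀ ∈ Q → ∃ F : ℂ → ℂ, ContinuousOn F Q ∧
      (∀ z ∈ Q, Complex.exp (F z) = f z) ∧ F z₀ = l := by
    intro Q hQ hQc hzQ
    obtain ⟨F, hF, hF'⟩ := h Q hQ hQc
    refine ⟨fun z => F z + (l - F z₀), hF.add continuousOn_const, fun z hz => ?_, by ring⟩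
    rw [Complex.exp_add, hF' z hz, Complex.exp_sub, hF' z₀ hzQ, hl, Complex.exp_log hf0,
      div_self hf0, mul_one]
  have hQex : ∀ z ∈ U, ∃ Q ⊆ U, IsCompact Q ∧ IsPreconnected Q ∧ z₀ ∈ Q ∧ z ∈ Q := by
    intro z hz
    obtain ⟨γ, hγ⟩ := hpc.joinedIn z₀ hz₀ z hz
    refine ⟨range γ, ?_, isCompact_range γ.continuous, isPreconnected_range γ.continuous,
      ⟨0, γ.source⟩, ⟨1, γ.target⟩⟩
    rintro _ ⟨t, rfl⟩
    exact hγ t
  choose! Q hQU hQc hQp hQ0 hQz using hQex
  choose! F hF hF' hF0 using fun z (hz : z ∈ U) => hnorm (Q z) (hQU z hz) (hQc z hz) (hQ0 z hz)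
  -- uniqueness
  have huniq : ∀ Q' ⊆ U, IsCompact Q' → IsPreconnected Q' → z₀ ∈ Q' → ∀ G : ℂ → ℂ,
      ContinuousOn G Q' → (∀ z ∈ Q', Complex.exp (G z) = f z) → G z₀ = l →
      ∀ z ∈ Q', F z z = G z := by
    intro Q' hQ'U hQ'c hQ'p hQ'0 G hG hG' hG0 z hz
    have hzU := hQ'U hz
    obtain ⟨H, hH, hH', hH0⟩ := hnorm (Q' ∪ Q z) (union_subset hQ'U (hQU z hzU))
      (hQ'c.union (hQc z hzU)) (Or.inl hQ'0)
    have e1 := log_diff_const hQ'p (hH.mono subset_union_left) hG
      (fun x hx => by rw [hH' x (Or.inl hx), hG' x hx]) hz hQ'0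
    have e2 := log_diff_const (hQp z hzU) (hH.mono subset_union_right) (hF z hzU)
      (fun x hx => by rw [hH' x (Or.inr hx), hF' z hzU x hx]) (hQz z hzU) (hQ0 z hzU)
    rw [hH0, hG0, sub_self] at e1
    rw [hH0, hF0 z hzU, sub_self] at e2
    rw [← sub_eq_zero.1 e1, ← sub_eq_zero.1 e2]
  refine ⟨fun z => F z z, ?_, fun z hz => hF' z hz z (hQz z hz)⟩
  intro z hz
  obtain ⟨ε, hε, hεU⟩ := Metric.isOpen_iff.1 hU z hz
  have hcb : Metric.closedBall z (ε / 2) ⊆ U :=
    (Metric.closedBall_subset_ball (by linarith)).trans hεU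
  have hzcb : z ∈ Metric.closedBall z (ε / 2) := Metric.mem_closedBall_self (by positivity)
  have hu1 : Q z ∪ Metric.closedBall z (ε / 2) ⊆ U := union_subset (hQU z hz) hcb
  have hu2 : IsCompact (Q z ∪ Metric.closedBall z (ε / 2)) :=
    (hQc z hz).union (isCompact_closedBall z _)
  have hu3 : IsPreconnected (Q z ∪ Metric.closedBall z (ε / 2)) :=
    (hQp z hz).union z (hQz z hz) hzcb (convex_closedBall z _).isPreconnected
  obtain ⟨G, hG, hG', hG0⟩ := hnorm _ hu1 hu2 (Or.inl (hQ0 z hz))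
  have heq := huniq _ hu1 hu2 hu3 (Or.inl (hQ0 z hz)) G hG hG' hG0
  have hnhds : Q z ∪ Metric.closedBall z (ε / 2) ∈ 𝓝 z :=
    Filter.mem_of_superset (Metric.closedBall_mem_nhds z (by positivity)) subset_union_right
  have hGz : ContinuousAt G z := hG.continuousAt hnhds
  refine ContinuousAt.continuousWithinAt ?_
  refine hGz.congr ?_
  filter_upwards [hnhds] with w hw
  exact (heq w hw).symm

/-- **Logarithms on domains without holes.** -/
theorem hasLogOn_of_noBdd {U : Set ℂ} (hU : IsOpen U) (hc : IsPreconnected U) (hb : NoBdd U) :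
    HasLogOn U := fun _ hf hf0 =>
  logOn_of_compacts hU hc fun _ hQU hQ => logOn_compact_of_noBdd hU hb hf hf0 hQ hQU

end P153.TOP
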