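import Vale.Agent.P153.R2.L1.Hyd

/-!
# P153, SLE side, block L1: hulls of the half-plane (definitions and statements)

`HH`, `IsHydro K g`, `inv K g` are in `Hyd.lean` (helper469).
-/

open Set Filter Topology Metric Bornology

namespace Vale.Agent.P153.R2.L1

/-- compact hull attached to the real line -/
structure IsHull (K : Set ℂ) : Prop where
  compact : IsCompact K
  im_nonneg : ∀ z ∈ K, 0 ≤ z.im
  conn : IsPreconnected (K ∪ {z : ℂ | z.im = 0})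
  compl : IsPreconnected (HH \ K)

/-- half-plane capacity of a hydrodynamically normalised map -/
noncomputable def hcap (g : ℂ → ℂ) : ℝ :=
  limUnder atTop (fun y : ℝ => y * (y - (g (y * Complex.I)).im))

/-- (L1.B) existence: proved in `Exist.lean` -/
def S_exists : Prop := ∀ K : Set ℂ, IsHull K → ∃ g, IsHydro K g

/-- uniqueness -/
def S_unique : Prop := ∀ (K K' : Set ℂ) (g g' : ℂ → ℂ), IsHydro K g → IsHydro K' g' →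
  HH \ K = HH \ K' → EqOn g g' (HH \ K)

/-- boundary behaviour at finite boundary points -/
def S_proper : Prop := ∀ (K : Set ℂ) (g : ℂ → ℂ), IsHydro K g → ∀ p ∉ HH \ K,
  Tendsto (fun z => (g z).im) (𝓝[HH \ K] p) (𝓝 0)

/-- infinity corresponds to infinity -/
def S_inv : Prop := ∀ (K : Set ℂ) (g : ℂ → ℂ), IsHydro K g →
  Tendsto (fun ζ => inv K g ζ - ζ) (cobounded ℂ ⊓ 𝓟 HH) (𝓝 0)

/-- reflection at infinity: expansion with a function which is real on the reals -/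
def S_refl : Prop := ∀ (K : Set ℂ) (g : ℂ → ℂ) (x₀ r : ℝ), IsHydro K g → 0 < r →
  HH ∩ K ⊆ closedBall (x₀ : ℂ) r → ∃ Ψ : ℂ → ℂ, DifferentiableOn ℂ Ψ (ball 0 (1 / r)) ∧
    Ψ 0 = 0 ∧ (∀ w, Ψ ((starRingEnd ℂ) w) = (starRingEnd ℂ) (Ψ w)) ∧
    (∀ w ∈ ball (0 : ℂ) (1 / r), 0 ≤ w.im → 0 ≤ (Ψ w).im) ∧
    ∀ z : ℂ, 0 < z.im → r < ‖z - x₀‖ → g z = z + Ψ (1 / (z - x₀))

/-- the limit in the definition of the capacity -/
def S_cap : Prop := ∀ (K : Set ℂ) (g : ℂ → ℂ), IsHydro K g →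
  Tendsto (fun z => z * (g z - z)) (cobounded ℂ ⊓ 𝓟 (HH \ K)) (𝓝 (hcap g : ℂ))

/-- capacity bounds -/
def S_cap_le : Prop := ∀ (K : Set ℂ) (g : ℂ → ℂ) (x₀ r : ℝ), IsHydro K g → 0 ≤ r →
  HH ∩ K ⊆ closedBall (x₀ : ℂ) r → 0 ≤ hcap g ∧ hcap g ≤ r ^ 2

def S_cap_pos : Prop := ∀ (K : Set ℂ) (g : ℂ → ℂ), IsHydro K g → (HH ∩ K).Nonempty → 0 < hcap g

/-- displacement bound, everywhere -/
def S_disp : Prop := ∀ (K : Set ℂ) (g : ℂ → ℂ) (x₀ r : ℝ), IsHydro K g → 0 ≤ r →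
  HH ∩ K ⊆ closedBall (x₀ : ℂ) r → ∀ z ∈ HH \ K, ‖g z - z‖ ≤ 8 * r

/-- expansion with error term -/
def S_exp : Prop := ∀ (K : Set ℂ) (g : ℂ → ℂ) (x₀ r : ℝ), IsHydro K g → 0 ≤ r →
  HH ∩ K ⊆ closedBall (x₀ : ℂ) r → ∀ z ∈ HH, 2 * r ≤ ‖z - x₀‖ →
    ‖g z - z‖ ≤ 8 * hcap g / ‖z - x₀‖ ∧
    ‖g z - z - hcap g / (z - x₀)‖ ≤ 16 * hcap g * r / ‖z - x₀‖ ^ 2

/-- composition: `K₁ ⊆ K`, the hull `g₁ (K \ K₁)` -/
def S_comp : Prop := ∀ (K K₁ : Set ℂ) (g g₁ : ℂ → ℂ), IsHydro K g → IsHydro K₁ g₁ →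
  HH ∩ K₁ ⊆ K → IsHydro (g₁ '' ((HH \ K₁) ∩ K)) (g ∘ inv K₁ g₁) ∧
    hcap g = hcap g₁ + hcap (g ∘ inv K₁ g₁)

end Vale.Agent.P153.R2.L1
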