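import Vale.Agent.P153.R2.L1.Est
import Vale.Agent.P153.R2.L1.Comp

/-!
# P153, SLE side, block L1.C: the statements of `Stmt.lean` on estimates
-/

open Complex Metric Set Filter Topology
open scoped Real ComplexConjugate

namespace Vale.Agent.P153.R2.L1

namespace IsHydro

variable {K : Set ℂ} {g : ℂ → ℂ}

/-- reduce to the part of `K` in the half-plane -/
theorem inter (h : IsHydro K g) : IsHydro (HH ∩ K) g :=
  h.congr_set (h.bdd.subset inter_subset_right) (by ext z; simp)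

theorem union_real (h : IsHydro K g) {K' : Set ℂ} (hb : Bornology.IsBounded K')
    (e : HH ∩ K = HH ∩ K') : IsHydro K' g :=
  h.congr_set hb (by
    ext z
    constructor
    · rintro ⟨h1, h2⟩
      refine ⟨h1, fun h3 => h2 ?_⟩
      have : z ∈ HH ∩ K := by rw [e]; exact ⟨h1, h3⟩
      exact this.2
    · rintro ⟨h1, h2⟩
      refine ⟨h1, fun h3 => h2 ?_⟩
      have : z ∈ HH ∩ K' := by rw [← e]; exact ⟨h1, h3⟩
      exact this.2)

end IsHydro

theorem s_cap : S_cap := by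
  intro K g h
  refine h.tendsto_hcap.mono_left (inf_le_inf_left _ ?_)
  exact principal_mono.mpr sdiff_subset

theorem s_cap_le : S_cap_le := by
  intro K g x₀ r h hr hK
  refine ⟨h.hcap_nonneg, ?_⟩
  have h1 : ∀ ε : ℝ, 0 < ε → hcap g ≤ (r + ε) ^ 2 := fun ε hε =>
    h.inter.hcap_le (x₀ := x₀) (by linarith) (hK.trans (closedBall_subset_closedBall (by linarith)))
  have hlim : Tendsto (fun ε : ℝ => (r + ε) ^ 2) (𝓝[>] 0) (𝓝 ((r + 0) ^ 2)) := by
    have : Continuous fun ε : ℝ => (r + ε) ^ 2 := by fun_prop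
    exact (this.tendsto 0).mono_left nhdsWithin_le_nhds
  rw [add_zero] at hlim
  refine ge_of_tendsto hlim ?_
  filter_upwards [self_mem_nhdsWithin] with ε hε
  exact h1 ε hε

/-- The displacement bound with constant `6`. -/
theorem disp6 {K : Set ℂ} {g : ℂ → ℂ} {x₀ r : ℝ} (h : IsHydro K g) (hr : 0 ≤ r)
    (hK : HH ∩ K ⊆ closedBall (x₀ : ℂ) r) {z : ℂ} (hz : z ∈ HH \ K) : ‖g z - z‖ ≤ 6 * r := by
  refine le_of_forall_pos_le_add fun ε hε => ?_
  have := h.inter.norm_sub_le (x₀ := x₀) (r := r + ε / 6) (by positivity)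
    (hK.trans (closedBall_subset_closedBall (by linarith))) (z := z)
    ⟨hz.1, fun hc => hz.2 hc.2⟩
  linarith

theorem s_disp : S_disp := by
  intro K g x₀ r h hr hK z hz
  have := disp6 h hr hK hz
  linarith

theorem exp6 {K : Set ℂ} {g : ℂ → ℂ} {x₀ r : ℝ} (h : IsHydro K g) (hr : 0 ≤ r)
    (hK : HH ∩ K ⊆ closedBall (x₀ : ℂ) r) {z : ℂ} (hz : z ∈ HH) (hn : 2 * r ≤ ‖z - x₀‖) :
    ‖g z - z‖ ≤ 4 * hcap g / ‖z - x₀‖ ∧
    ‖g z - z - hcap g / (z - x₀)‖ ≤ 6 * hcap g * r / ‖z - x₀‖ ^ 2 := by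
  have hn0 : 0 < ‖z - x₀‖ := by
    rw [norm_pos_iff, sub_ne_zero]
    rintro rfl
    have : (0 : ℝ) < ((x₀ : ℂ)).im := hz
    simp at this
  rcases hr.eq_or_lt with hr0 | hr0
  · -- `r = 0`
    subst hr0
    have hr' : ∀ ε : ℝ, 0 < ε → 2 * ε ≤ ‖z - x₀‖ → ‖g z - z‖ ≤ 4 * hcap g / ‖z - x₀‖ ∧
        ‖g z - z - hcap g / (z - x₀)‖ ≤ 6 * hcap g * ε / ‖z - x₀‖ ^ 2 := fun ε hε h2 =>
      ⟨h.inter.est1 (x₀ := x₀) hε (hK.trans (closedBall_subset_closedBall hε.le)) hz h2,
        h.inter.est2 (x₀ := x₀) hε (hK.trans (closedBall_subset_closedBall hε.le)) hz h2⟩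
    refine ⟨(hr' (‖z - x₀‖ / 2) (by positivity) (by linarith)).1, ?_⟩
    have hlim : Tendsto (fun ε : ℝ => 6 * hcap g * ε / ‖z - x₀‖ ^ 2) (𝓝[>] 0)
        (𝓝 (6 * hcap g * 0 / ‖z - x₀‖ ^ 2)) := by
      have : Continuous fun ε : ℝ => 6 * hcap g * ε / ‖z - x₀‖ ^ 2 := by fun_prop
      exact (this.tendsto 0).mono_left nhdsWithin_le_nhds
    refine ge_of_tendsto hlim ?_
    have hsm : ∀ᶠ ε : ℝ in 𝓝[>] 0, ε < ‖z - x₀‖ / 2 :=
      (gt_mem_nhds (by positivity)).filter_mono nhdsWithin_le_nhds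
    filter_upwards [self_mem_nhdsWithin, hsm] with ε hε h2
    exact (hr' ε hε (by linarith)).2
  · exact ⟨h.inter.est1 hr0 hK hz hn, h.inter.est2 hr0 hK hz hn⟩

theorem s_exp : S_exp := by
  intro K g x₀ r h hr hK z hz hn
  obtain ⟨h1, h2⟩ := exp6 h hr hK hz hn
  have h3 := h.hcap_nonneg
  refine ⟨h1.trans ?_, h2.trans ?_⟩
  · gcongr
    norm_num
  · gcongr
    norm_num

theorem s_refl : S_refl := by
  intro K g x₀ r h hr hK
  obtain ⟨Ψ, hd, h0, hs, hsym, hg, -⟩ := h.inter.exists_psi hr hK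
  classical
  have hmem : ∀ w : ℂ, w ∈ ball (0 : ℂ) (1 / r) ↔ r * w ∈ ball (0 : ℂ) 1 := by
    intro w
    rw [mem_ball_zero_iff, mem_ball_zero_iff, norm_mul, norm_real, Real.norm_eq_abs,
      abs_of_pos hr, lt_div_iff₀ hr, mul_comm]
  have hconj : ∀ w : ℂ, w ∈ ball (0 : ℂ) (1 / r) → conj w ∈ ball (0 : ℂ) (1 / r) := by
    intro w hw
    rw [mem_ball_zero_iff] at hw ⊢
    rwa [RCLike.norm_conj]
  refine ⟨fun w => if w ∈ ball (0 : ℂ) (1 / r) then Ψ (r * w) else 0, ?_, ?_, ?_, ?_, ?_⟩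
  · have h1 : DifferentiableOn ℂ (fun w : ℂ => Ψ (r * w)) (ball 0 (1 / r)) := by
      refine hd.comp (by fun_prop) ?_
      intro w hw
      exact (hmem w).mp hw
    refine h1.congr fun w hw => ?_
    simp only [hw, if_true]
  · have : (0 : ℂ) ∈ ball (0 : ℂ) (1 / r) := mem_ball_self (by positivity)
    simp only [this, if_true, mul_zero, h0]
  · intro w
    by_cases hw : w ∈ ball (0 : ℂ) (1 / r)
    · simp only [hw, hconj w hw, if_true]
      rw [← hsym _ ((hmem w).mp hw)]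
      simp
    · have hw' : conj w ∉ ball (0 : ℂ) (1 / r) := by
        intro hc
        apply hw
        have := hconj _ hc
        simpa using this
      simp only [hw, hw', if_false, map_zero]
  · intro w hw h0w
    simp only [hw, if_true]
    have h1 := hs _ ((hmem w).mp hw)
    rcases h0w.eq_or_lt with h2 | h2
    · -- real points: symmetric value
      have e : conj w = w := by
        apply Complex.ext
        · simp
        · simp [← h2]
      have h3 := hsym _ ((hmem w).mp hw)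
      have e2 : conj ((r : ℂ) * w) = r * w := by rw [map_mul, conj_ofReal, e]
      rw [e2] at h3
      have := congrArg Complex.im h3
      rw [conj_im] at this
      linarith
    · rw [im_ofReal_mul] at h1
      have : 0 < r * w.im := mul_pos hr h2
      by_contra hc
      push Not at hc
      nlinarith
  · intro z hz hn
    have hn0 : 0 < ‖z - x₀‖ := by linarith
    have hw : (1 : ℂ) / (z - x₀) ∈ ball (0 : ℂ) (1 / r) := by
      rw [mem_ball_zero_iff, norm_div, norm_one]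
      exact one_div_lt_one_div_of_lt hr hn
    simp only [hw, if_true]
    have := hg z hz hn
    rw [mul_one_div, ← this]
    ring

theorem s_cap_pos : S_cap_pos := by
  intro K g h hne
  refine lt_of_le_of_ne h.hcap_nonneg fun h0 => ?_
  obtain ⟨R, hR⟩ := (Metric.isBounded_iff_subset_closedBall (0 : ℂ)).mp h.bdd
  set r := max R 1 with hr
  have hr0 : 0 < r := lt_of_lt_of_le one_pos (le_max_right _ _)
  have hK : K ⊆ closedBall ((0 : ℝ) : ℂ) r := by
    rw [ofReal_zero]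
    exact hR.trans (closedBall_subset_closedBall (le_max_left _ _))
  have hfar : ∀ z ∈ HH, 2 * r ≤ ‖z‖ → g z = z := by
    intro z hz hn
    have := h.est1 hr0 hK hz (by simpa using hn)
    rw [← h0, mul_zero, zero_div] at this
    exact sub_eq_zero.mp (norm_le_zero_iff.mp this)
  set z₀ : ℂ := ((3 * r : ℝ) : ℂ) * I with hz₀
  have hz₀n : ‖z₀‖ = 3 * r := by
    rw [hz₀, norm_mul, norm_I, mul_one, norm_real, Real.norm_eq_abs, abs_of_pos (by linarith)]
  have hz₀H : z₀ ∈ HH := by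
    change 0 < z₀.im
    simp [hz₀, hr0]
  have hz₀K : z₀ ∉ K := by
    intro hc
    have := hK hc
    rw [ofReal_zero, mem_closedBall_zero_iff, hz₀n] at this
    linarith
  have hid : EqOn g id (HH \ K) := by
    refine AnalyticOnNhd.eqOn_of_preconnected_of_eventuallyEq (h.diff.analyticOnNhd h.isOpen)
      analyticOnNhd_id h.connected ⟨hz₀H, hz₀K⟩ ?_
    have h1 : ∀ᶠ z in 𝓝 z₀, 2 * r < ‖z‖ :=
      continuous_norm.continuousAt.eventually (lt_mem_nhds (by
        change 2 * r < ‖z₀‖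
        rw [hz₀n]; linarith))
    filter_upwards [h1, isOpen_HH.mem_nhds hz₀H] with z h2 h3
    exact hfar z h3 h2.le
  obtain ⟨p, hp, hpK⟩ := hne
  have : p ∈ g '' (HH \ K) := by rw [h.image]; exact hp
  obtain ⟨q, hq, hqp⟩ := this
  have : q = p := by
    have := hid hq
    simp only [id] at this
    rw [← this, hqp]
  rw [this] at hq
  exact hq.2 hpK

theorem s_comp : S_comp := s_comp_of s_cap

end Vale.Agent.P153.R2.L1
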